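import Mathlib

/-! Derivatives of the smooth transition function in closed form. -/

set_option autoImplicit false

namespace Crest.Agent.Lib.BoxFlow

open scoped ContDiff

/-- The basic transition function. -/
noncomputable def chi (x : ℝ) : ℝ := Real.smoothTransition x

theorem chi_contDiff : ContDiff ℝ ∞ chi := Real.smoothTransition.contDiff (n := ⊤)

theorem chi_nonpos {x : ℝ} (h : x ≤ 0) : chi x = 0 := Real.smoothTransition.zero_of_nonpos h

theorem chi_one_le {x : ℝ} (h : 1 ≤ x) : chi x = 1 := Real.smoothTransition.one_of_one_le h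

theorem chi_nonneg (x : ℝ) : 0 ≤ chi x := Real.smoothTransition.nonneg x

theorem chi_le_one (x : ℝ) : chi x ≤ 1 := Real.smoothTransition.le_one x

/-- `u - v` on the unit interval. -/
noncomputable def ww (x : ℝ) : ℝ := x⁻¹ - (1 - x)⁻¹

theorem chi_eq {x : ℝ} (h0 : 0 < x) (h1 : x < 1) : chi x = (1 + Real.exp (ww x))⁻¹ := by
  unfold chi Real.smoothTransition expNegInvGlue ww
  have h2 : ¬ x ≤ 0 := not_le.2 h0
  have h3 : ¬ 1 - x ≤ 0 := by linarith
  simp only [h2, h3, if_false]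
  have e1 := Real.exp_pos (-x⁻¹)
  have e2 := Real.exp_pos (-(1 - x)⁻¹)
  have e3 : Real.exp (x⁻¹ - (1 - x)⁻¹) = (Real.exp (-x⁻¹))⁻¹ * Real.exp (-(1 - x)⁻¹) := by
    rw [sub_eq_add_neg, Real.exp_add, Real.exp_neg x⁻¹, inv_inv]
  rw [e3]
  field_simp

theorem hasDerivAt_uu {x : ℝ} (h0 : 0 < x) : HasDerivAt (fun y : ℝ => y⁻¹) (-(x⁻¹ ^ 2)) x := by
  have := hasDerivAt_inv (x := x) h0.ne'
  refine this.congr_deriv ?_
  rw [inv_pow]

theorem hasDerivAt_vv {x : ℝ} (h1 : x < 1) :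
    HasDerivAt (fun y : ℝ => (1 - y)⁻¹) (((1 - x)⁻¹) ^ 2) x := by
  have h2 : (1 - x) ≠ 0 := by linarith
  have h3 : HasDerivAt (fun y : ℝ => 1 - y) (-1) x := by
    simpa using (hasDerivAt_id x).const_sub 1
  have := h3.fun_inv h2
  refine this.congr_deriv ?_
  rw [inv_pow]
  simp

theorem hasDerivAt_chi {x : ℝ} (h0 : 0 < x) (h1 : x < 1) :
    HasDerivAt chi (chi x * (1 - chi x) * (x⁻¹ ^ 2 + ((1 - x)⁻¹) ^ 2)) x := by
  have hw : HasDerivAt ww (-(x⁻¹ ^ 2) - ((1 - x)⁻¹) ^ 2) x :=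
    (hasDerivAt_uu h0).sub (hasDerivAt_vv h1)
  have hE := hw.exp
  have hD : HasDerivAt (fun y => 1 + Real.exp (ww y))
      (Real.exp (ww x) * (-(x⁻¹ ^ 2) - ((1 - x)⁻¹) ^ 2)) x := hE.const_add 1
  have hpos : (0 : ℝ) < 1 + Real.exp (ww x) := by positivity
  have hI := hD.inv hpos.ne'
  have hev : chi =ᶠ[nhds x] fun y => (1 + Real.exp (ww y))⁻¹ := by
    have : Set.Ioo (0 : ℝ) 1 ∈ nhds x := Ioo_mem_nhds h0 h1
    filter_upwards [this] with y hy
    exact chi_eq hy.1 hy.2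
  refine (hI.congr_of_eventuallyEq hev).congr_deriv ?_
  rw [chi_eq h0 h1]
  generalize Real.exp (ww x) = E at *
  generalize x⁻¹ ^ 2 = a
  generalize ((1 - x)⁻¹) ^ 2 = b
  field_simp
  ring

/-! ### Monomials -/

/-- A monomial `(a - b) s^i r^i' u^j v^l` in the coordinates `((a,b),(i,i',j,l))`. -/
abbrev Mono := (ℕ × ℕ) × (ℕ × ℕ × ℕ × ℕ)

/-- Value of a monomial. -/
def monoEval {R : Type*} [CommRing R] (M : Mono) (s r u v : R) : R :=
  ((M.1.1 : R) - M.1.2) * (s ^ M.2.1 * r ^ M.2.2.1 * u ^ M.2.2.2.1 * v ^ M.2.2.2.2)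

/-- Value of a list of monomials. -/
def polyEval {R : Type*} [CommRing R] (P : List Mono) (s r u v : R) : R :=
  (P.map (fun M => monoEval M s r u v)).sum

@[simp] theorem polyEval_nil {R : Type*} [CommRing R] (s r u v : R) : polyEval [] s r u v = 0 := rfl

@[simp] theorem polyEval_cons {R : Type*} [CommRing R] (M : Mono) (P : List Mono) (s r u v : R) :
    polyEval (M :: P) s r u v = monoEval M s r u v + polyEval P s r u v := by
  simp [polyEval]

@[simp] theorem polyEval_append {R : Type*} [CommRing R] (P P' : List Mono) (s r u v : R) :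
    polyEval (P ++ P') s r u v = polyEval P s r u v + polyEval P' s r u v := by
  simp [polyEval]

/-- Formal derivative of a monomial. -/
def DMono (M : Mono) : List Mono :=
  [((M.1.1 * M.2.1, M.1.2 * M.2.1), (M.2.1, M.2.2.1 + 1, M.2.2.2.1 + 2, M.2.2.2.2)),
   ((M.1.1 * M.2.1, M.1.2 * M.2.1), (M.2.1, M.2.2.1 + 1, M.2.2.2.1, M.2.2.2.2 + 2)),
   ((M.1.2 * M.2.2.1, M.1.1 * M.2.2.1), (M.2.1 + 1, M.2.2.1, M.2.2.2.1 + 2, M.2.2.2.2)),
   ((M.1.2 * M.2.2.1, M.1.1 * M.2.2.1), (M.2.1 + 1, M.2.2.1, M.2.2.2.1, M.2.2.2.2 + 2)),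
   ((M.1.2 * M.2.2.2.1, M.1.1 * M.2.2.2.1), (M.2.1, M.2.2.1, M.2.2.2.1 + 1, M.2.2.2.2)),
   ((M.1.1 * M.2.2.2.2, M.1.2 * M.2.2.2.2), (M.2.1, M.2.2.1, M.2.2.2.1, M.2.2.2.2 + 1))]

/-- The monomial list of the `(k+1)`-st derivative of `chi`. -/
def QQ : ℕ → List Mono
  | 0 => [((1, 0), (1, 1, 2, 0)), ((1, 0), (1, 1, 0, 2))]
  | k + 1 => (QQ k).flatMap DMono

theorem pow_pred_mul {R : Type*} [CommRing R] (n : ℕ) (x : R) :
    (n : R) * x ^ (n - 1) * x = n * x ^ n := by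
  cases n with
  | zero => simp
  | succ n => simp [pow_succ]; ring

theorem hasDerivAt_monoEval {x : ℝ} (h0 : 0 < x) (h1 : x < 1) (M : Mono) :
    HasDerivAt (fun y => monoEval M (chi y) (1 - chi y) y⁻¹ (1 - y)⁻¹)
      (polyEval (DMono M) (chi x) (1 - chi x) x⁻¹ (1 - x)⁻¹) x := by
  obtain ⟨⟨a, b⟩, i, i', j, l⟩ := M
  have hs := hasDerivAt_chi h0 h1
  have hr : HasDerivAt (fun y => 1 - chi y)
      (-(chi x * (1 - chi x) * (x⁻¹ ^ 2 + ((1 - x)⁻¹) ^ 2))) x := hs.const_sub 1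
  have hu := hasDerivAt_uu h0
  have hv := hasDerivAt_vv h1
  have := (((hs.fun_pow i).fun_mul (hr.fun_pow i')).fun_mul (hu.fun_pow j)).fun_mul (hv.fun_pow l)
  have h2 := this.const_mul ((a : ℝ) - b)
  unfold monoEval
  simp only
  refine h2.congr_deriv ?_
  simp only [DMono, polyEval_cons, polyEval_nil, monoEval]
  generalize chi x = s
  generalize hU : x⁻¹ = u
  generalize hV : (1 - x)⁻¹ = v
  generalize 1 - s = r
  have e1 := pow_pred_mul i s
  have e2 := pow_pred_mul i' r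
  have e3 := pow_pred_mul j u
  have e4 := pow_pred_mul l v
  push_cast
  generalize (a : ℝ) = c1
  generalize (b : ℝ) = c2
  linear_combination ((c1 - c2) * r * (u ^ 2 + v ^ 2) * r ^ i' * u ^ j * v ^ l) * e1 +
    ((c1 - c2) * s ^ i * (-s) * (u ^ 2 + v ^ 2) * u ^ j * v ^ l) * e2 +
    (-((c1 - c2) * s ^ i * r ^ i' * u * v ^ l)) * e3 +
    ((c1 - c2) * s ^ i * r ^ i' * u ^ j * v) * e4

theorem hasDerivAt_polyEval {x : ℝ} (h0 : 0 < x) (h1 : x < 1) (P : List Mono) :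
    HasDerivAt (fun y => polyEval P (chi y) (1 - chi y) y⁻¹ (1 - y)⁻¹)
      (polyEval (P.flatMap DMono) (chi x) (1 - chi x) x⁻¹ (1 - x)⁻¹) x := by
  induction P with
  | nil => simpa using hasDerivAt_const x (0 : ℝ)
  | cons M P ih =>
    simp only [polyEval_cons, List.flatMap_cons, polyEval_append]
    exact (hasDerivAt_monoEval h0 h1 M).fun_add ih

theorem iteratedDeriv_chi_Ioo (k : ℕ) {x : ℝ} (h0 : 0 < x) (h1 : x < 1) :
    iteratedDeriv (k + 1) chi x = polyEval (QQ k) (chi x) (1 - chi x) x⁻¹ (1 - x)⁻¹ := by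
  induction k generalizing x with
  | zero =>
    rw [iteratedDeriv_one, (hasDerivAt_chi h0 h1).deriv]
    simp only [QQ, polyEval_cons, polyEval_nil, monoEval]
    push_cast
    ring
  | succ k ih =>
    rw [iteratedDeriv_succ]
    have hev : iteratedDeriv (k + 1) chi =ᶠ[nhds x]
        fun y => polyEval (QQ k) (chi y) (1 - chi y) y⁻¹ (1 - y)⁻¹ := by
      filter_upwards [Ioo_mem_nhds h0 h1] with y hy
      exact ih hy.1 hy.2
    rw [hev.deriv_eq, (hasDerivAt_polyEval h0 h1 _).deriv]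
    rfl

/-- all monomials of `QQ k` have positive exponents on `s` and `r`. -/
theorem QQ_pos (k : ℕ) : ∀ M ∈ QQ k, 1 ≤ M.2.1 ∧ 1 ≤ M.2.2.1 := by
  induction k with
  | zero =>
    intro M hM
    simp only [QQ, List.mem_cons, List.not_mem_nil, or_false] at hM
    rcases hM with rfl | rfl <;> simp
  | succ k ih =>
    intro M hM
    simp only [QQ, List.mem_flatMap] at hM
    obtain ⟨N, hN, hM⟩ := hM
    have := ih N hN
    simp only [DMono, List.mem_cons, List.not_mem_nil, or_false] at hM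
    rcases hM with rfl | rfl | rfl | rfl | rfl | rfl <;> simp <;> omega

theorem exp_two_le : Real.exp 2 ≤ 8 := by
  have h : Real.exp 2 = Real.exp 1 * Real.exp 1 := by
    rw [← Real.exp_add]; norm_num
  have h1 := Real.exp_one_lt_d9
  have h2 := Real.exp_pos 1
  rw [h]
  nlinarith

theorem pow_mul_exp_neg_le (y : ℝ) (hy : 0 ≤ y) (j : ℕ) :
    y ^ j * Real.exp (-y) ≤ ((j ^ j : ℕ) : ℝ) := by
  have h1 := Real.pow_div_factorial_le_exp y hy j
  have hfac : 0 < (j.factorial : ℝ) := by positivity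
  have h2 : y ^ j ≤ Real.exp y * j.factorial := by
    rwa [div_le_iff₀ hfac] at h1
  have h3 : y ^ j * Real.exp (-y) ≤ j.factorial := by
    rw [Real.exp_neg]
    have he := Real.exp_pos y
    rw [← div_eq_mul_inv, div_le_iff₀ he]
    linarith
  refine h3.trans ?_
  exact_mod_cast Nat.factorial_le_pow j

/-- The key estimate. -/
theorem sr_bound {x : ℝ} (h0 : 0 < x) (h1 : x < 1) (j l : ℕ) :
    chi x * (1 - chi x) * (x⁻¹ ^ j * ((1 - x)⁻¹) ^ l) ≤
      8 * ((j ^ j : ℕ) : ℝ) * ((l ^ l : ℕ) : ℝ) * 2 ^ (j + l) := by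
  have hs0 := chi_nonneg x
  have hs1 := chi_le_one x
  have hj : (1 : ℝ) ≤ ((j ^ j : ℕ) : ℝ) := by
    have : 1 ≤ j ^ j := Nat.one_le_iff_ne_zero.2 (by
      cases j with
      | zero => simp
      | succ j => positivity)
    exact_mod_cast this
  have hl : (1 : ℝ) ≤ ((l ^ l : ℕ) : ℝ) := by
    have : 1 ≤ l ^ l := Nat.one_le_iff_ne_zero.2 (by
      cases l with
      | zero => simp
      | succ l => positivity)
    exact_mod_cast this
  have h2 : (0 : ℝ) < 1 - x := by linarith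
  have hu : 0 < x⁻¹ := inv_pos.2 h0
  have hv : 0 < (1 - x)⁻¹ := inv_pos.2 h2
  have hE := Real.exp_pos (ww x)
  have hchi := chi_eq h0 h1
  have hr : 1 - chi x = Real.exp (ww x) * (1 + Real.exp (ww x))⁻¹ := by
    rw [hchi]; field_simp; ring
  rcases le_total x (1 / 2) with hx | hx
  · -- `v ≤ 2`
    have hv2 : (1 - x)⁻¹ ≤ 2 := by
      rw [inv_le_comm₀ h2 (by norm_num)]
      linarith
    have hs : chi x ≤ Real.exp ((1 - x)⁻¹ - x⁻¹) := by
      rw [hchi]
      have : Real.exp ((1 - x)⁻¹ - x⁻¹) = (Real.exp (ww x))⁻¹ := by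
        rw [← Real.exp_neg]; unfold ww; congr 1; ring
      rw [this]
      apply inv_anti₀ hE; linarith
    have h3 : chi x ≤ 8 * Real.exp (-x⁻¹) := by
      refine hs.trans ?_
      have : Real.exp ((1 - x)⁻¹ - x⁻¹) = Real.exp ((1 - x)⁻¹) * Real.exp (-x⁻¹) := by
        rw [sub_eq_add_neg, Real.exp_add]
      rw [this]
      have h4 : Real.exp ((1 - x)⁻¹) ≤ 8 :=
        (Real.exp_le_exp.2 hv2).trans exp_two_le
      exact mul_le_mul_of_nonneg_right h4 (Real.exp_pos _).le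
    have h5 := pow_mul_exp_neg_le x⁻¹ hu.le j
    have h6 : ((1 - x)⁻¹) ^ l ≤ 2 ^ l := pow_le_pow_left₀ hv.le hv2 l
    have hv0 : 0 ≤ ((1 - x)⁻¹) ^ l := by positivity
    have hu0 : 0 ≤ x⁻¹ ^ j := by positivity
    calc chi x * (1 - chi x) * (x⁻¹ ^ j * ((1 - x)⁻¹) ^ l)
        ≤ (8 * Real.exp (-x⁻¹)) * 1 * (x⁻¹ ^ j * ((1 - x)⁻¹) ^ l) := by
          apply mul_le_mul_of_nonneg_right _ (by positivity)
          exact mul_le_mul h3 (by linarith) (by linarith) (by positivity)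
      _ = 8 * (x⁻¹ ^ j * Real.exp (-x⁻¹)) * ((1 - x)⁻¹) ^ l := by ring
      _ ≤ 8 * ((j ^ j : ℕ) : ℝ) * 2 ^ l := by
          apply mul_le_mul _ h6 hv0 (by positivity)
          apply mul_le_mul_of_nonneg_left h5 (by norm_num)
      _ ≤ 8 * ((j ^ j : ℕ) : ℝ) * ((l ^ l : ℕ) : ℝ) * 2 ^ (j + l) := by
          have h7 : (2 : ℝ) ^ l ≤ 2 ^ (j + l) :=
            pow_le_pow_right₀ (by norm_num) (by omega)
          have h8 : (0 : ℝ) < 2 ^ (j + l) := by positivity
          have h9 : (0 : ℝ) < 8 * ((j ^ j : ℕ) : ℝ) := by positivity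
          calc 8 * ((j ^ j : ℕ) : ℝ) * 2 ^ l ≤ 8 * ((j ^ j : ℕ) : ℝ) * 2 ^ (j + l) :=
                mul_le_mul_of_nonneg_left h7 h9.le
            _ = 8 * ((j ^ j : ℕ) : ℝ) * 1 * 2 ^ (j + l) := by ring
            _ ≤ _ := by
              apply mul_le_mul_of_nonneg_right _ h8.le
              exact mul_le_mul_of_nonneg_left hl h9.le
  · -- `u ≤ 2`
    have hu2 : x⁻¹ ≤ 2 := by
      rw [inv_le_comm₀ h0 (by norm_num)]
      linarith
    have hs : 1 - chi x ≤ Real.exp (x⁻¹ - (1 - x)⁻¹) := by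
      rw [hr]
      unfold ww
      have h10 : (1 + Real.exp (x⁻¹ - (1 - x)⁻¹))⁻¹ ≤ 1 := by
        apply inv_le_one_of_one_le₀
        have := Real.exp_pos (x⁻¹ - (1 - x)⁻¹)
        linarith
      have h11 := Real.exp_pos (x⁻¹ - (1 - x)⁻¹)
      nlinarith
    have h3 : 1 - chi x ≤ 8 * Real.exp (-(1 - x)⁻¹) := by
      refine hs.trans ?_
      have : Real.exp (x⁻¹ - (1 - x)⁻¹) = Real.exp (x⁻¹) * Real.exp (-(1 - x)⁻¹) := by
        rw [sub_eq_add_neg, Real.exp_add]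
      rw [this]
      have h4 : Real.exp (x⁻¹) ≤ 8 :=
        (Real.exp_le_exp.2 hu2).trans exp_two_le
      exact mul_le_mul_of_nonneg_right h4 (Real.exp_pos _).le
    have h5 := pow_mul_exp_neg_le (1 - x)⁻¹ hv.le l
    have h6 : (x⁻¹) ^ j ≤ 2 ^ j := pow_le_pow_left₀ hu.le hu2 j
    have hv0 : 0 ≤ ((1 - x)⁻¹) ^ l := by positivity
    have hu0 : 0 ≤ x⁻¹ ^ j := by positivity
    calc chi x * (1 - chi x) * (x⁻¹ ^ j * ((1 - x)⁻¹) ^ l)
        ≤ 1 * (8 * Real.exp (-(1 - x)⁻¹)) * (x⁻¹ ^ j * ((1 - x)⁻¹) ^ l) := by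
          apply mul_le_mul_of_nonneg_right _ (by positivity)
          exact mul_le_mul hs1 h3 (by linarith) (by norm_num)
      _ = 8 * (((1 - x)⁻¹) ^ l * Real.exp (-(1 - x)⁻¹)) * x⁻¹ ^ j := by ring
      _ ≤ 8 * ((l ^ l : ℕ) : ℝ) * 2 ^ j := by
          apply mul_le_mul _ h6 hu0 (by positivity)
          apply mul_le_mul_of_nonneg_left h5 (by norm_num)
      _ ≤ 8 * ((j ^ j : ℕ) : ℝ) * ((l ^ l : ℕ) : ℝ) * 2 ^ (j + l) := by
          have h7 : (2 : ℝ) ^ j ≤ 2 ^ (j + l) :=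
            pow_le_pow_right₀ (by norm_num) (by omega)
          have h8 : (0 : ℝ) < 2 ^ (j + l) := by positivity
          have h9 : (0 : ℝ) < 8 * ((l ^ l : ℕ) : ℝ) := by positivity
          calc 8 * ((l ^ l : ℕ) : ℝ) * 2 ^ j ≤ 8 * ((l ^ l : ℕ) : ℝ) * 2 ^ (j + l) :=
                mul_le_mul_of_nonneg_left h7 h9.le
            _ = 8 * 1 * ((l ^ l : ℕ) : ℝ) * 2 ^ (j + l) := by ring
            _ ≤ _ := by
              apply mul_le_mul_of_nonneg_right _ h8.le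
              apply mul_le_mul_of_nonneg_right _ (by positivity)
              apply mul_le_mul_of_nonneg_left hj (by norm_num)

/-- The natural number bounding a monomial. -/
def monoBound (M : Mono) : ℕ :=
  (M.1.1 + M.1.2) * (8 * M.2.2.2.1 ^ M.2.2.2.1 * M.2.2.2.2 ^ M.2.2.2.2 * 2 ^ (M.2.2.2.1 + M.2.2.2.2))

/-- Bound for the `(k+1)`-st derivative -/
def chiBound (k : ℕ) : ℕ := ((QQ k).map monoBound).sum

theorem abs_monoEval_le {x : ℝ} (h0 : 0 < x) (h1 : x < 1) (M : Mono)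
    (hM : 1 ≤ M.2.1 ∧ 1 ≤ M.2.2.1) :
    |monoEval M (chi x) (1 - chi x) x⁻¹ (1 - x)⁻¹| ≤ (monoBound M : ℝ) := by
  obtain ⟨⟨a, b⟩, i, i', j, l⟩ := M
  simp only at hM
  obtain ⟨hi, hi'⟩ := hM
  have hs0 := chi_nonneg x
  have hs1 := chi_le_one x
  have hr0 : 0 ≤ 1 - chi x := by linarith
  have hr1 : 1 - chi x ≤ 1 := by linarith
  have h2 : (0 : ℝ) < 1 - x := by linarith
  have hu : 0 < x⁻¹ := inv_pos.2 h0
  have hv : 0 < (1 - x)⁻¹ := inv_pos.2 h2
  unfold monoEval monoBound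
  simp only
  rw [abs_mul]
  push_cast
  apply mul_le_mul
  · rw [abs_le]
    have ha : (0 : ℝ) ≤ a := by positivity
    have hb : (0 : ℝ) ≤ b := by positivity
    constructor <;> linarith
  · have e1 : chi x ^ i ≤ chi x := by
      calc chi x ^ i ≤ chi x ^ 1 := pow_le_pow_of_le_one hs0 hs1 hi
        _ = chi x := pow_one _
    have e2 : (1 - chi x) ^ i' ≤ 1 - chi x := by
      calc (1 - chi x) ^ i' ≤ (1 - chi x) ^ 1 := pow_le_pow_of_le_one hr0 hr1 hi'
        _ = 1 - chi x := pow_one _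
    have hpos : 0 ≤ chi x ^ i * (1 - chi x) ^ i' * x⁻¹ ^ j * ((1 - x)⁻¹) ^ l := by positivity
    rw [abs_of_nonneg hpos]
    have := sr_bound h0 h1 j l
    push_cast at this
    calc chi x ^ i * (1 - chi x) ^ i' * x⁻¹ ^ j * ((1 - x)⁻¹) ^ l
        = chi x ^ i * (1 - chi x) ^ i' * (x⁻¹ ^ j * ((1 - x)⁻¹) ^ l) := by ring
      _ ≤ chi x * (1 - chi x) * (x⁻¹ ^ j * ((1 - x)⁻¹) ^ l) := by
          apply mul_le_mul_of_nonneg_right _ (by positivity)
          exact mul_le_mul e1 e2 (by positivity) hs0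
      _ ≤ _ := this
  · exact abs_nonneg _
  · positivity

theorem abs_polyEval_le {x : ℝ} (h0 : 0 < x) (h1 : x < 1) (P : List Mono)
    (hP : ∀ M ∈ P, 1 ≤ M.2.1 ∧ 1 ≤ M.2.2.1) :
    |polyEval P (chi x) (1 - chi x) x⁻¹ (1 - x)⁻¹| ≤ ((P.map monoBound).sum : ℕ) := by
  induction P with
  | nil => simp
  | cons M P ih =>
    simp only [polyEval_cons, List.map_cons, List.sum_cons]
    push_cast
    refine (abs_add_le _ _).trans (add_le_add ?_ ?_)
    · exact abs_monoEval_le h0 h1 M (hP M (by simp))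
    · have := ih (fun N hN => hP N (by simp [hN]))
      push_cast at this
      exact this

theorem iteratedDeriv_chi_eq_zero (k : ℕ) {x : ℝ} (hx : x ≤ 0 ∨ 1 ≤ x) :
    iteratedDeriv (k + 1) chi x = 0 := by
  have hcont : Continuous (iteratedDeriv (k + 1) chi) :=
    chi_contDiff.continuous_iteratedDeriv (k + 1) (by simp; exact_mod_cast le_top)
  have hclosed : IsClosed {y | iteratedDeriv (k + 1) chi y = 0} :=
    isClosed_eq hcont continuous_const
  have hneg : ∀ y, y < 0 → iteratedDeriv (k + 1) chi y = 0 := by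
    intro y hy
    have hev : chi =ᶠ[nhds y] fun _ => 0 := by
      filter_upwards [Iio_mem_nhds hy] with z hz
      exact chi_nonpos (le_of_lt hz)
    rw [hev.iteratedDeriv_eq]
    simp
  have hpos : ∀ y, 1 < y → iteratedDeriv (k + 1) chi y = 0 := by
    intro y hy
    have hev : chi =ᶠ[nhds y] fun _ => 1 := by
      filter_upwards [Ioi_mem_nhds hy] with z hz
      exact chi_one_le (le_of_lt hz)
    rw [hev.iteratedDeriv_eq, iteratedDeriv_succ']
    simp
  rcases hx with hx | hx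
  · have hsub : Set.Iio (0 : ℝ) ⊆ {y | iteratedDeriv (k + 1) chi y = 0} := fun y hy => hneg y hy
    have := closure_minimal hsub hclosed
    rw [closure_Iio] at this
    exact this hx
  · have hsub : Set.Ioi (1 : ℝ) ⊆ {y | iteratedDeriv (k + 1) chi y = 0} := fun y hy => hpos y hy
    have := closure_minimal hsub hclosed
    rw [closure_Ioi] at this
    exact this hx

theorem abs_iteratedDeriv_chi_le (k : ℕ) (x : ℝ) :
    |iteratedDeriv (k + 1) chi x| ≤ (chiBound k : ℝ) := by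
  by_cases hx : x ≤ 0 ∨ 1 ≤ x
  · rw [iteratedDeriv_chi_eq_zero k hx]
    simp
  · push Not at hx
    rw [iteratedDeriv_chi_Ioo k hx.1 hx.2]
    exact abs_polyEval_le hx.1 hx.2 _ (QQ_pos k)

end Crest.Agent.Lib.BoxFlow
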