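import Crest.Agent.Lib.BoxFlow.CompTools
import Crest.Agent.Lib.BoxFlow.Chi

/-! Effective approximation of all derivatives of `chi`. -/

set_option autoImplicit false

namespace Crest.Agent.Lib.BoxFlow

open Encodable Denumerable
open scoped Nat

theorem exp_sub_sum_le {w : ℝ} (hw : 0 ≤ w) (N : ℕ) :
    Real.exp w - ∑ m ∈ Finset.range N, w ^ m / (m ! : ℝ) ≤ w ^ N / (N ! : ℝ) * Real.exp w := by
  have hs := Real.summable_pow_div_factorial w
  have h1 : Real.exp w = ∑' m : ℕ, w ^ m / (m ! : ℝ) := by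
    rw [Real.exp_eq_exp_ℝ, NormedSpace.exp_eq_tsum_div]
  have h2 := hs.sum_add_tsum_nat_add N
  have h3 : ∑' i : ℕ, w ^ (i + N) / ((i + N)! : ℝ) ≤
      ∑' i : ℕ, w ^ N / (N ! : ℝ) * (w ^ i / (i ! : ℝ)) := by
    refine Summable.tsum_le_tsum ?_ ((summable_nat_add_iff N).2 hs) (hs.mul_left _)
    intro i
    have h4 : ((i ! * N ! : ℕ) : ℝ) ≤ ((i + N)! : ℝ) := by
      exact_mod_cast Nat.factorial_mul_factorial_dvd_factorial_add i N |> Nat.le_of_dvd
        (Nat.factorial_pos _)
    have h5 : (0 : ℝ) < ((i ! * N ! : ℕ) : ℝ) := by positivity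
    have h6 : w ^ N / (N ! : ℝ) * (w ^ i / (i ! : ℝ)) = w ^ (i + N) / ((i ! * N ! : ℕ) : ℝ) := by
      push_cast
      rw [pow_add]
      field_simp
    rw [h6]
    exact div_le_div_of_nonneg_left (by positivity) h5 h4
  rw [tsum_mul_left, ← h1] at h3
  rw [← h1] at h2
  linarith

/-- partial sum of the exponential series -/
def expT (w : ℚ) (N : ℕ) : ℚ := ∑ m ∈ Finset.range N, w ^ m / (m ! : ℚ)

theorem expT_cast (w : ℚ) (N : ℕ) :
    ((expT w N : ℚ) : ℝ) = ∑ m ∈ Finset.range N, (w : ℝ) ^ m / (m ! : ℝ) := by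
  unfold expT
  push_cast
  rfl

/-- The logistic function -/
noncomputable def sig (w : ℝ) : ℝ := (1 + Real.exp w)⁻¹

/-- Rational approximation of `sig`. -/
def sApprox (w : ℚ) (N : ℕ) : ℚ := if 0 ≤ w then (1 + expT w N)⁻¹ else 1 - (1 + expT (-w) N)⁻¹

theorem sig_neg (w : ℝ) : sig w = 1 - sig (-w) := by
  unfold sig
  have h1 := Real.exp_pos w
  rw [Real.exp_neg]
  field_simp
  ring

theorem expT_nonneg {w : ℚ} (hw : 0 ≤ w) (N : ℕ) : 0 ≤ expT w N := by
  unfold expT
  apply Finset.sum_nonneg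
  intro m _
  positivity

theorem approx_pos_spec {w : ℚ} (hw : 0 ≤ w) (N : ℕ) :
    |sig (w : ℝ) - (((1 + expT w N)⁻¹ : ℚ) : ℝ)| ≤ (w : ℝ) ^ N / (N ! : ℝ) := by
  have hw' : (0 : ℝ) ≤ w := by exact_mod_cast hw
  have h1 := exp_sub_sum_le hw' N
  have h2 := Real.sum_le_exp_of_nonneg hw' N
  rw [← expT_cast] at h1 h2
  unfold sig
  push_cast
  have hT : (0 : ℝ) ≤ (expT w N : ℝ) := by exact_mod_cast expT_nonneg hw N
  have hE := Real.exp_pos (w : ℝ)
  have hR : (0 : ℝ) ≤ (w : ℝ) ^ N / (N ! : ℝ) := by positivity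
  generalize (w : ℝ) ^ N / (N ! : ℝ) = R at *
  generalize (expT w N : ℝ) = T at *
  generalize Real.exp (w : ℝ) = E at *
  have hTE : (1 + T)⁻¹ - (1 + E)⁻¹ = (E - T) / ((1 + T) * (1 + E)) := by
    field_simp
    ring
  rw [abs_sub_comm, hTE, abs_of_nonneg (div_nonneg (by linarith) (by positivity)),
    div_le_iff₀ (by positivity)]
  have : E ≤ (1 + T) * (1 + E) := by nlinarith
  nlinarith

theorem sApprox_spec (w : ℚ) (N : ℕ) :
    |sig (w : ℝ) - (sApprox w N : ℝ)| ≤ |(w : ℝ)| ^ N / (N ! : ℝ) := by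
  unfold sApprox
  by_cases hw : 0 ≤ w
  · rw [if_pos hw]
    have hw' : (0 : ℝ) ≤ w := by exact_mod_cast hw
    rw [abs_of_nonneg hw']
    exact approx_pos_spec hw N
  · rw [if_neg hw]
    have hw1 : 0 ≤ -w := by linarith [not_le.1 hw]
    have hw' : (w : ℝ) < 0 := by exact_mod_cast not_le.1 hw
    have := approx_pos_spec hw1 N
    rw [abs_of_neg hw', sig_neg]
    push_cast at this ⊢
    rw [show (1 - sig (-(w : ℝ)) - (1 - (1 + (expT (-w) N : ℝ))⁻¹)) =
      -(sig (-(w : ℝ)) - (1 + (expT (-w) N : ℝ))⁻¹) by ring, abs_neg]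
    exact this

theorem sApprox_mem (w : ℚ) (N : ℕ) : 0 ≤ sApprox w N ∧ sApprox w N ≤ 1 := by
  unfold sApprox
  have key : ∀ T : ℚ, 0 ≤ T → 0 ≤ (1 + T)⁻¹ ∧ (1 + T)⁻¹ ≤ 1 := by
    intro T hT
    refine ⟨by positivity, inv_le_one_of_one_le₀ (by linarith)⟩
  by_cases hw : 0 ≤ w
  · rw [if_pos hw]
    exact key _ (expT_nonneg hw N)
  · rw [if_neg hw]
    have hw1 : 0 ≤ -w := by linarith [not_le.1 hw]
    obtain ⟨h1, h2⟩ := key _ (expT_nonneg hw1 N)
    constructor <;> linarith

theorem chi_eq_sig {x : ℝ} (h0 : 0 < x) (h1 : x < 1) : chi x = sig (ww x) := chi_eq h0 h1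

/-! ### The monomial list of every derivative -/

/-- Monomials of the `k`-th derivative of `chi` on the unit interval. -/
def PP : ℕ → List Mono
  | 0 => [((1, 0), (1, 0, 0, 0))]
  | k + 1 => QQ k

theorem iteratedDeriv_chi_PP (k : ℕ) {x : ℝ} (h0 : 0 < x) (h1 : x < 1) :
    iteratedDeriv k chi x = polyEval (PP k) (chi x) (1 - chi x) x⁻¹ (1 - x)⁻¹ := by
  cases k with
  | zero => simp [PP, monoEval]
  | succ k => exact iteratedDeriv_chi_Ioo k h0 h1

/-- Lipschitz constant of a monomial in the `s` variable -/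
def monoLip {R : Type*} [CommRing R] (M : Mono) (u v : R) : R :=
  ((M.1.1 : R) + M.1.2) * (((M.2.1 : R) + M.2.2.1) * (u ^ M.2.2.2.1 * v ^ M.2.2.2.2))

/-- Lipschitz constant of a polynomial in the `s` variable -/
def polyLip {R : Type*} [CommRing R] (P : List Mono) (u v : R) : R :=
  (P.map (fun M => monoLip M u v)).sum

theorem pow_lip {s t : ℝ} (hs : 0 ≤ s) (hs1 : s ≤ 1) (ht : 0 ≤ t) (ht1 : t ≤ 1) (i : ℕ) :
    |s ^ i - t ^ i| ≤ i * |s - t| := by
  induction i with
  | zero => simp
  | succ i ih =>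
    have e : s ^ (i + 1) - t ^ (i + 1) = s * (s ^ i - t ^ i) + t ^ i * (s - t) := by ring
    rw [e]
    refine (abs_add_le _ _).trans ?_
    rw [abs_mul, abs_mul, abs_of_nonneg hs, abs_of_nonneg (pow_nonneg ht i)]
    have h1 : t ^ i ≤ 1 := pow_le_one₀ ht ht1
    have h2 := abs_nonneg (s - t)
    have h3 := abs_nonneg (s ^ i - t ^ i)
    push_cast
    have h4 : s * |s ^ i - t ^ i| ≤ 1 * |s ^ i - t ^ i| := mul_le_mul_of_nonneg_right hs1 h3
    have h5 : t ^ i * |s - t| ≤ 1 * |s - t| := mul_le_mul_of_nonneg_right h1 h2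
    linarith

theorem prod_lip {s t : ℝ} (hs : 0 ≤ s) (hs1 : s ≤ 1) (ht : 0 ≤ t) (ht1 : t ≤ 1) (i i' : ℕ) :
    |s ^ i * (1 - s) ^ i' - t ^ i * (1 - t) ^ i'| ≤ ((i : ℝ) + i') * |s - t| := by
  have e : s ^ i * (1 - s) ^ i' - t ^ i * (1 - t) ^ i' =
      (s ^ i - t ^ i) * (1 - s) ^ i' + t ^ i * ((1 - s) ^ i' - (1 - t) ^ i') := by ring
  rw [e]
  refine (abs_add_le _ _).trans ?_
  rw [abs_mul, abs_mul]
  have hr0 : 0 ≤ 1 - s := by linarith
  have hr1 : 1 - s ≤ 1 := by linarith
  have hq0 : 0 ≤ 1 - t := by linarith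
  have hq1 : 1 - t ≤ 1 := by linarith
  have h1 := pow_lip hs hs1 ht ht1 i
  have h2 := pow_lip hr0 hr1 hq0 hq1 i'
  have h3 : |(1 - s) - (1 - t)| = |s - t| := by
    rw [show (1 - s) - (1 - t) = t - s by ring, abs_sub_comm]
  rw [h3] at h2
  have h4 : |(1 - s) ^ i'| ≤ 1 := by
    rw [abs_of_nonneg (pow_nonneg hr0 _)]; exact pow_le_one₀ hr0 hr1
  have h5 : |t ^ i| ≤ 1 := by
    rw [abs_of_nonneg (pow_nonneg ht _)]; exact pow_le_one₀ ht ht1
  have h6 := abs_nonneg (s ^ i - t ^ i)
  have h7 := abs_nonneg ((1 - s) ^ i' - (1 - t) ^ i')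
  have h8 : |s ^ i - t ^ i| * |(1 - s) ^ i'| ≤ |s ^ i - t ^ i| * 1 :=
    mul_le_mul_of_nonneg_left h4 h6
  have h9 : |t ^ i| * |(1 - s) ^ i' - (1 - t) ^ i'| ≤ 1 * |(1 - s) ^ i' - (1 - t) ^ i'| :=
    mul_le_mul_of_nonneg_right h5 h7
  linarith

theorem monoEval_lip {s t u v : ℝ} (hs : 0 ≤ s) (hs1 : s ≤ 1) (ht : 0 ≤ t) (ht1 : t ≤ 1)
    (hu : 0 ≤ u) (hv : 0 ≤ v) (M : Mono) :
    |monoEval M s (1 - s) u v - monoEval M t (1 - t) u v| ≤ monoLip M u v * |s - t| := by
  obtain ⟨⟨a, b⟩, i, i', j, l⟩ := M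
  simp only [monoEval, monoLip]
  have e : ((a : ℝ) - b) * (s ^ i * (1 - s) ^ i' * u ^ j * v ^ l) -
      ((a : ℝ) - b) * (t ^ i * (1 - t) ^ i' * u ^ j * v ^ l) =
      ((a : ℝ) - b) * ((s ^ i * (1 - s) ^ i' - t ^ i * (1 - t) ^ i') * (u ^ j * v ^ l)) := by ring
  rw [e, abs_mul, abs_mul, abs_of_nonneg (by positivity : 0 ≤ u ^ j * v ^ l)]
  have h1 := prod_lip hs hs1 ht ht1 i i'
  have h2 : |(a : ℝ) - b| ≤ (a : ℝ) + b := by
    rw [abs_le]
    have ha : (0 : ℝ) ≤ a := by positivity
    have hb : (0 : ℝ) ≤ b := by positivity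
    constructor <;> linarith
  have h3 : 0 ≤ u ^ j * v ^ l := by positivity
  calc |(a : ℝ) - b| * (|s ^ i * (1 - s) ^ i' - t ^ i * (1 - t) ^ i'| * (u ^ j * v ^ l))
      ≤ ((a : ℝ) + b) * ((((i : ℝ) + i') * |s - t|) * (u ^ j * v ^ l)) := by
        apply mul_le_mul h2 _ (by positivity) (by positivity)
        exact mul_le_mul_of_nonneg_right h1 h3
    _ = _ := by ring

theorem polyEval_lip {s t u v : ℝ} (hs : 0 ≤ s) (hs1 : s ≤ 1) (ht : 0 ≤ t) (ht1 : t ≤ 1)
    (hu : 0 ≤ u) (hv : 0 ≤ v) (P : List Mono) :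
    |polyEval P s (1 - s) u v - polyEval P t (1 - t) u v| ≤ polyLip P u v * |s - t| := by
  induction P with
  | nil => simp [polyLip]
  | cons M P ih =>
    simp only [polyEval_cons, polyLip, List.map_cons, List.sum_cons]
    have e : monoEval M s (1 - s) u v + polyEval P s (1 - s) u v -
        (monoEval M t (1 - t) u v + polyEval P t (1 - t) u v) =
        (monoEval M s (1 - s) u v - monoEval M t (1 - t) u v) +
        (polyEval P s (1 - s) u v - polyEval P t (1 - t) u v) := by ring
    rw [e, add_mul]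
    exact (abs_add_le _ _).trans (add_le_add (monoEval_lip hs hs1 ht ht1 hu hv M) ih)

theorem polyLip_nonneg {u v : ℝ} (hu : 0 ≤ u) (hv : 0 ≤ v) (P : List Mono) :
    0 ≤ polyLip P u v := by
  induction P with
  | nil => simp [polyLip]
  | cons M P ih =>
    simp only [polyLip, List.map_cons, List.sum_cons]
    refine add_nonneg ?_ ih
    unfold monoLip
    positivity

theorem monoEval_cast (M : Mono) (s r u v : ℚ) :
    ((monoEval M s r u v : ℚ) : ℝ) = monoEval M (s : ℝ) r u v := by
  simp [monoEval]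

theorem polyEval_cast (P : List Mono) (s r u v : ℚ) :
    ((polyEval P s r u v : ℚ) : ℝ) = polyEval P (s : ℝ) r u v := by
  induction P with
  | nil => simp
  | cons M P ih =>
    simp only [polyEval_cons]
    push_cast
    rw [ih, monoEval_cast]

theorem monoLip_cast (M : Mono) (u v : ℚ) :
    ((monoLip M u v : ℚ) : ℝ) = monoLip M (u : ℝ) v := by
  simp [monoLip]

theorem polyLip_cast (P : List Mono) (u v : ℚ) :
    ((polyLip P u v : ℚ) : ℝ) = polyLip P (u : ℝ) v := by
  induction P with
  | nil => simp [polyLip]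
  | cons M P ih =>
    unfold polyLip at ih ⊢
    simp only [List.map_cons, List.sum_cons]
    rw [Rat.cast_add, ih, monoLip_cast]

/-! ### The search for the precision -/

theorem exists_precision (C w : ℚ) : ∃ N : ℕ, C * (|w| ^ N / (N ! : ℚ)) ≤ 1 := by
  have h := FloorSemiring.tendsto_pow_div_factorial_atTop (|w| : ℚ)
  have h2 : Filter.Tendsto (fun N : ℕ => C * (|w| ^ N / (N ! : ℚ))) Filter.atTop (nhds (C * 0)) :=
    h.const_mul C
  rw [mul_zero] at h2
  have h3 := (h2.eventually (ge_mem_nhds (by norm_num : (0 : ℚ) < 1))).exists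
  exact h3

theorem exists_precision' (p : ℚ × ℚ) :
    ∃ N : ℕ, decide (p.1 * (|p.2| ^ N / (N ! : ℚ)) ≤ 1) = true := by
  obtain ⟨N, hN⟩ := exists_precision p.1 p.2
  exact ⟨N, by simpa using hN⟩

/-- The precision index. -/
noncomputable def precN (p : ℚ × ℚ) : ℕ := Nat.find (exists_precision' p)

theorem precN_spec (C w : ℚ) : C * (|w| ^ precN (C, w) / ((precN (C, w))! : ℚ)) ≤ 1 :=
  of_decide_eq_true (Nat.find_spec (exists_precision' (C, w)))

theorem computable_precN : Computable precN := by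
  refine computable_find (p := fun (p : ℚ × ℚ) (N : ℕ) =>
    decide (p.1 * (|p.2| ^ N / (N ! : ℚ)) ≤ 1)) ?_ exists_precision'
  refine Computable.qle ?_ (Computable.const 1)
  refine Computable.qmul (Computable.fst.comp Computable.fst) ?_
  refine Computable.qdiv (Computable.qpow (Computable.qabs (Computable.snd.comp Computable.fst))
    Computable.snd) ?_
  exact Computable.natCast (computable_factorial.comp Computable.snd)

/-- The approximation function of `chi`'s derivatives. -/
noncomputable def chiE (a : ℕ × ℚ × ℕ) : ℚ :=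
  if a.2.1 ≤ 0 then 0
  else if 1 ≤ a.2.1 then (if a.1 = 0 then 1 else 0)
  else
    polyEval (PP a.1)
      (sApprox (a.2.1⁻¹ - (1 - a.2.1)⁻¹)
        (precN ((polyLip (PP a.1) a.2.1⁻¹ (1 - a.2.1)⁻¹ + 1) * ((a.2.2 : ℚ) + 1),
          a.2.1⁻¹ - (1 - a.2.1)⁻¹)))
      (1 - sApprox (a.2.1⁻¹ - (1 - a.2.1)⁻¹)
        (precN ((polyLip (PP a.1) a.2.1⁻¹ (1 - a.2.1)⁻¹ + 1) * ((a.2.2 : ℚ) + 1),
          a.2.1⁻¹ - (1 - a.2.1)⁻¹)))
      a.2.1⁻¹ (1 - a.2.1)⁻¹

theorem chiE_spec (k : ℕ) (x : ℚ) (n : ℕ) :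
    |iteratedDeriv k chi (x : ℝ) - (chiE (k, x, n) : ℝ)| ≤ 1 / ((n : ℝ) + 1) := by
  have hn : (0 : ℝ) < (n : ℝ) + 1 := by positivity
  unfold chiE
  simp only
  by_cases h0 : x ≤ 0
  · rw [if_pos h0]
    have h0' : (x : ℝ) ≤ 0 := by exact_mod_cast h0
    cases k with
    | zero =>
      simp only [iteratedDeriv_zero, chi_nonpos h0']
      simp only [Rat.cast_zero, sub_zero, abs_zero]
      positivity
    | succ k =>
      rw [iteratedDeriv_chi_eq_zero k (Or.inl h0')]
      simp only [Rat.cast_zero, sub_zero, abs_zero]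
      positivity
  rw [if_neg h0]
  by_cases h1 : 1 ≤ x
  · rw [if_pos h1]
    have h1' : (1 : ℝ) ≤ (x : ℝ) := by exact_mod_cast h1
    cases k with
    | zero =>
      simp only [iteratedDeriv_zero, chi_one_le h1', if_true]
      simp only [Rat.cast_one, sub_self, abs_zero]
      positivity
    | succ k =>
      rw [iteratedDeriv_chi_eq_zero k (Or.inr h1')]
      simp only [Nat.add_one_ne_zero, if_false]
      simp only [Rat.cast_zero, sub_zero, abs_zero]
      positivity
  rw [if_neg h1]
  have hx0 : (0 : ℝ) < x := by exact_mod_cast not_le.1 h0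
  have hx1 : (x : ℝ) < 1 := by exact_mod_cast not_le.1 h1
  have hq0 : (0 : ℚ) < x := not_le.1 h0
  have hq1 : x < 1 := not_le.1 h1
  rw [iteratedDeriv_chi_PP k hx0 hx1]
  set u : ℚ := x⁻¹ with hu
  set v : ℚ := (1 - x)⁻¹ with hv
  have hu0 : (0 : ℚ) ≤ u := by rw [hu]; positivity
  have hv0 : (0 : ℚ) ≤ v := by
    rw [hv]; exact inv_nonneg.2 (by linarith)
  set w : ℚ := u - v with hw
  set C : ℚ := (polyLip (PP k) u v + 1) * ((n : ℚ) + 1) with hC
  set N := precN (C, w) with hN
  set st := sApprox w N with hst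
  have hu' : (x : ℝ)⁻¹ = (u : ℝ) := by rw [hu]; push_cast; rfl
  have hv' : (1 - (x : ℝ))⁻¹ = (v : ℝ) := by rw [hv]; push_cast; rfl
  have hww : ww (x : ℝ) = (w : ℝ) := by
    unfold ww; rw [hu', hv', hw]; push_cast; rfl
  rw [polyEval_cast, hu', hv']
  have hs := chi_eq_sig hx0 hx1
  rw [hww] at hs
  have hspec := sApprox_spec w N
  rw [← hst, ← hs] at hspec
  obtain ⟨hst0, hst1⟩ := sApprox_mem w N
  rw [← hst] at hst0 hst1
  have hst0' : (0 : ℝ) ≤ (st : ℝ) := by exact_mod_cast hst0
  have hst1' : (st : ℝ) ≤ 1 := by exact_mod_cast hst1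
  have hu0' : (0 : ℝ) ≤ (u : ℝ) := by exact_mod_cast hu0
  have hv0' : (0 : ℝ) ≤ (v : ℝ) := by exact_mod_cast hv0
  have hlip := polyEval_lip (chi_nonneg (x : ℝ)) (chi_le_one _) hst0' hst1' hu0' hv0' (PP k)
  have hLnn := polyLip_nonneg hu0' hv0' (PP k)
  have hprec := precN_spec C w
  rw [← hN] at hprec
  have hprec' : ((C * (|w| ^ N / (N ! : ℚ)) : ℚ) : ℝ) ≤ 1 := by exact_mod_cast hprec
  push_cast at hprec' hlip ⊢
  have hC' : ((C : ℚ) : ℝ) = (polyLip (PP k) (u : ℝ) v + 1) * ((n : ℝ) + 1) := by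
    rw [hC]; push_cast; rw [polyLip_cast]
  rw [hC'] at hprec'
  have ht : (0 : ℝ) ≤ |(w : ℝ)| ^ N / (N ! : ℝ) := by positivity
  set t : ℝ := |(w : ℝ)| ^ N / (N ! : ℝ) with htdef
  set L : ℝ := polyLip (PP k) (u : ℝ) v with hL
  calc _ ≤ L * |chi (x : ℝ) - (st : ℝ)| := hlip
    _ ≤ L * t := mul_le_mul_of_nonneg_left hspec hLnn
    _ ≤ 1 / ((n : ℝ) + 1) := by
      rw [le_div_iff₀ hn]
      nlinarith

/-- The bound function of `chi`'s derivatives. -/
def chiB : ℕ → ℕ
  | 0 => 1
  | k + 1 => chiBound k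

theorem abs_iteratedDeriv_chi_le' (k : ℕ) (x : ℝ) : |iteratedDeriv k chi x| ≤ (chiB k : ℝ) := by
  cases k with
  | zero =>
    simp only [iteratedDeriv_zero, chiB]
    rw [abs_of_nonneg (chi_nonneg x)]
    simpa using chi_le_one x
  | succ k => exact abs_iteratedDeriv_chi_le k x

/-! ### Computability -/

theorem primrec_DMono : Primrec DMono := by
  have a : Primrec (fun M : Mono => M.1.1) := Primrec.fst.comp Primrec.fst
  have b : Primrec (fun M : Mono => M.1.2) := Primrec.snd.comp Primrec.fst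
  have i : Primrec (fun M : Mono => M.2.1) := Primrec.fst.comp Primrec.snd
  have i' : Primrec (fun M : Mono => M.2.2.1) :=
    Primrec.fst.comp (Primrec.snd.comp Primrec.snd)
  have j : Primrec (fun M : Mono => M.2.2.2.1) :=
    Primrec.fst.comp (Primrec.snd.comp (Primrec.snd.comp Primrec.snd))
  have l : Primrec (fun M : Mono => M.2.2.2.2) :=
    Primrec.snd.comp (Primrec.snd.comp (Primrec.snd.comp Primrec.snd))
  have mul : ∀ {f g : Mono → ℕ}, Primrec f → Primrec g → Primrec (fun M => f M * g M) :=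
    fun hf hg => Primrec.nat_mul.comp hf hg
  have add : ∀ {f : Mono → ℕ} (c : ℕ), Primrec f → Primrec (fun M => f M + c) :=
    fun c hf => Primrec.nat_add.comp hf (Primrec.const c)
  have mk : ∀ {f1 f2 f3 f4 f5 f6 : Mono → ℕ}, Primrec f1 → Primrec f2 → Primrec f3 → Primrec f4 →
      Primrec f5 → Primrec f6 →
      Primrec (fun M => (((f1 M, f2 M), (f3 M, f4 M, f5 M, f6 M)) : Mono)) :=
    fun h1 h2 h3 h4 h5 h6 => Primrec.pair (Primrec.pair h1 h2)
      (Primrec.pair h3 (Primrec.pair h4 (Primrec.pair h5 h6)))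
  have cons : ∀ {f : Mono → Mono} {g : Mono → List Mono}, Primrec f → Primrec g →
      Primrec (fun M => f M :: g M) := fun hf hg => Primrec.list_cons.comp hf hg
  unfold DMono
  refine cons (mk (mul a i) (mul b i) i (add 1 i') (add 2 j) l) ?_
  refine cons (mk (mul a i) (mul b i) i (add 1 i') j (add 2 l)) ?_
  refine cons (mk (mul b i') (mul a i') (add 1 i) i' (add 2 j) l) ?_
  refine cons (mk (mul b i') (mul a i') (add 1 i) i' j (add 2 l)) ?_
  refine cons (mk (mul b j) (mul a j) i i' (add 1 j) l) ?_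
  refine cons (mk (mul a l) (mul b l) i i' j (add 1 l)) ?_
  exact Primrec.const []

theorem primrec_QQ : Primrec QQ := by
  have h : Primrec₂ (fun (_ : ℕ) (L : List Mono) => L.flatMap DMono) :=
    Primrec.list_flatMap Primrec.snd (primrec_DMono.comp₂ Primrec₂.right)
  have := Primrec.nat_rec₁ (QQ 0) h
  refine this.of_eq ?_
  intro k
  induction k with
  | zero => rfl
  | succ k ih =>
    show List.flatMap DMono (Nat.rec (QQ 0) (fun _ L => List.flatMap DMono L) k) =
      List.flatMap DMono (QQ k)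
    rw [ih]

theorem primrec_PP : Primrec PP := by
  have := Primrec.nat_casesOn₁ (PP 0) primrec_QQ
  refine this.of_eq ?_
  intro k
  cases k <;> rfl

section
variable {α : Type*} [Primcodable α]

theorem computable_monoEval {f : α → Mono} {s r u v : α → ℚ} (hf : Computable f)
    (hs : Computable s) (hr : Computable r) (hu : Computable u) (hv : Computable v) :
    Computable (fun a => monoEval (f a) (s a) (r a) (u a) (v a)) := by
  have a1 : Computable (fun a => (f a).1.1) := Computable.fst.comp (Computable.fst.comp hf)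
  have a2 : Computable (fun a => (f a).1.2) := Computable.snd.comp (Computable.fst.comp hf)
  have a3 : Computable (fun a => (f a).2.1) := Computable.fst.comp (Computable.snd.comp hf)
  have a4 : Computable (fun a => (f a).2.2.1) :=
    Computable.fst.comp (Computable.snd.comp (Computable.snd.comp hf))
  have a5 : Computable (fun a => (f a).2.2.2.1) :=
    Computable.fst.comp (Computable.snd.comp (Computable.snd.comp (Computable.snd.comp hf)))
  have a6 : Computable (fun a => (f a).2.2.2.2) :=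
    Computable.snd.comp (Computable.snd.comp (Computable.snd.comp (Computable.snd.comp hf)))
  unfold monoEval
  exact Computable.qmul (Computable.qsub (Computable.natCast a1) (Computable.natCast a2))
    (Computable.qmul (Computable.qmul (Computable.qmul (Computable.qpow hs a3) (Computable.qpow hr a4))
      (Computable.qpow hu a5)) (Computable.qpow hv a6))

theorem computable_monoLip {f : α → Mono} {u v : α → ℚ} (hf : Computable f)
    (hu : Computable u) (hv : Computable v) :
    Computable (fun a => monoLip (f a) (u a) (v a)) := by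
  have a1 : Computable (fun a => (f a).1.1) := Computable.fst.comp (Computable.fst.comp hf)
  have a2 : Computable (fun a => (f a).1.2) := Computable.snd.comp (Computable.fst.comp hf)
  have a3 : Computable (fun a => (f a).2.1) := Computable.fst.comp (Computable.snd.comp hf)
  have a4 : Computable (fun a => (f a).2.2.1) :=
    Computable.fst.comp (Computable.snd.comp (Computable.snd.comp hf))
  have a5 : Computable (fun a => (f a).2.2.2.1) :=
    Computable.fst.comp (Computable.snd.comp (Computable.snd.comp (Computable.snd.comp hf)))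
  have a6 : Computable (fun a => (f a).2.2.2.2) :=
    Computable.snd.comp (Computable.snd.comp (Computable.snd.comp (Computable.snd.comp hf)))
  unfold monoLip
  exact Computable.qmul (Computable.qadd (Computable.natCast a1) (Computable.natCast a2))
    (Computable.qmul (Computable.qadd (Computable.natCast a3) (Computable.natCast a4))
      (Computable.qmul (Computable.qpow hu a5) (Computable.qpow hv a6)))

theorem computable_qadd₂ : Computable₂ (fun x y : ℚ => x + y) :=
  Computable.qadd Computable.fst Computable.snd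

theorem computable_polyEval {f : α → List Mono} {s r u v : α → ℚ} (hf : Computable f)
    (hs : Computable s) (hr : Computable r) (hu : Computable u) (hv : Computable v) :
    Computable (fun a => polyEval (f a) (s a) (r a) (u a) (v a)) := by
  unfold polyEval
  refine computable_list_sum computable_qadd₂ hf ?_
  exact computable_monoEval Computable.snd (hs.comp Computable.fst) (hr.comp Computable.fst)
    (hu.comp Computable.fst) (hv.comp Computable.fst)

theorem computable_polyLip {f : α → List Mono} {u v : α → ℚ} (hf : Computable f)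
    (hu : Computable u) (hv : Computable v) :
    Computable (fun a => polyLip (f a) (u a) (v a)) := by
  unfold polyLip
  refine computable_list_sum computable_qadd₂ hf ?_
  exact computable_monoLip Computable.snd (hu.comp Computable.fst) (hv.comp Computable.fst)

theorem computable_expT {w : α → ℚ} {N : α → ℕ} (hw : Computable w) (hN : Computable N) :
    Computable (fun a => expT (w a) (N a)) := by
  unfold expT
  refine computable_sum_range ?_ hN
  exact Computable.qdiv (Computable.qpow (hw.comp Computable.fst) Computable.snd)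
    (Computable.natCast (computable_factorial.comp Computable.snd))

theorem computable_sApprox {w : α → ℚ} {N : α → ℕ} (hw : Computable w) (hN : Computable N) :
    Computable (fun a => sApprox (w a) (N a)) := by
  unfold sApprox
  refine Computable.ite' (Computable.qle (Computable.const 0) hw) ?_ ?_
  · exact Computable.qinv (Computable.qadd (Computable.const 1) (computable_expT hw hN))
  · exact Computable.qsub (Computable.const 1)
      (Computable.qinv (Computable.qadd (Computable.const 1)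
        (computable_expT (Computable.qneg hw) hN)))

end

theorem computable_chiE : Computable chiE := by
  have hk : Computable (fun a : ℕ × ℚ × ℕ => a.1) := Computable.fst
  have hx : Computable (fun a : ℕ × ℚ × ℕ => a.2.1) := Computable.fst.comp Computable.snd
  have hn : Computable (fun a : ℕ × ℚ × ℕ => a.2.2) := Computable.snd.comp Computable.snd
  have hP : Computable (fun a : ℕ × ℚ × ℕ => PP a.1) := primrec_PP.to_comp.comp hk
  have hu : Computable (fun a : ℕ × ℚ × ℕ => a.2.1⁻¹) := Computable.qinv hx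
  have hv : Computable (fun a : ℕ × ℚ × ℕ => (1 - a.2.1)⁻¹) :=
    Computable.qinv (Computable.qsub (Computable.const 1) hx)
  have hw := Computable.qsub hu hv
  have hC : Computable (fun a : ℕ × ℚ × ℕ =>
      (polyLip (PP a.1) a.2.1⁻¹ (1 - a.2.1)⁻¹ + 1) * ((a.2.2 : ℚ) + 1)) :=
    Computable.qmul (Computable.qadd (computable_polyLip hP hu hv) (Computable.const 1))
      (Computable.qadd (Computable.natCast hn) (Computable.const 1))
  have hN := computable_precN.comp (hC.pair hw)
  have hS := computable_sApprox hw hN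
  have hE := computable_polyEval hP hS (Computable.qsub (Computable.const 1) hS) hu hv
  unfold chiE
  refine Computable.ite' (Computable.qle hx (Computable.const 0)) (Computable.const 0) ?_
  refine Computable.ite' (Computable.qle (Computable.const 1) hx) ?_ hE
  refine Computable.ite' ?_ (Computable.const 1) (Computable.const 0)
  have : Primrec₂ (fun x y : ℕ => decide (x = y)) := Primrec.eq.decide
  exact this.to_comp.comp hk (Computable.const 0)

theorem computable_chiB : Computable chiB := by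
  have h1 : Computable₂ (fun x y : ℕ => x + y) := Primrec.nat_add.to_comp
  have hm : Primrec monoBound := by
    have a : Primrec (fun M : Mono => M.1.1) := Primrec.fst.comp Primrec.fst
    have b : Primrec (fun M : Mono => M.1.2) := Primrec.snd.comp Primrec.fst
    have j : Primrec (fun M : Mono => M.2.2.2.1) :=
      Primrec.fst.comp (Primrec.snd.comp (Primrec.snd.comp Primrec.snd))
    have l : Primrec (fun M : Mono => M.2.2.2.2) :=
      Primrec.snd.comp (Primrec.snd.comp (Primrec.snd.comp Primrec.snd))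
    have pw : Primrec₂ (fun x y : ℕ => x ^ y) := Primrec₂.unpaired'.1 Nat.Primrec.pow
    unfold monoBound
    refine Primrec.nat_mul.comp (Primrec.nat_add.comp a b) ?_
    refine Primrec.nat_mul.comp (Primrec.nat_mul.comp (Primrec.nat_mul.comp (Primrec.const 8)
      (pw.comp j j)) (pw.comp l l)) (pw.comp (Primrec.const 2) (Primrec.nat_add.comp j l))
  have h2 : Computable chiBound := by
    unfold chiBound
    refine computable_list_sum (g := fun _ M => monoBound M) h1 primrec_QQ.to_comp ?_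
    exact hm.to_comp.comp Computable.snd
  have h3 := Computable.nat_casesOn (f := fun k : ℕ => k) (g := fun _ => 1)
    (h := fun _ k => chiBound k) Computable.id (Computable.const 1) (h2.comp Computable.snd)
  refine h3.of_eq ?_
  intro k
  cases k <;> rfl

end Crest.Agent.Lib.BoxFlow
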