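import Crest.Agent.Lib.BoxFlow.RatComp

/-! Further computability tools: list sums, powers, and so on. -/

set_option autoImplicit false

namespace Crest.Agent.Lib.BoxFlow

open Encodable Denumerable

section

variable {α β σ : Type*} [Primcodable α] [Primcodable β] [Primcodable σ]

/-- Computable fold of a sum over a list. -/
theorem computable_list_sum [AddMonoid σ] (hadd : Computable₂ (fun x y : σ => x + y))
    {f : α → List β} {g : α → β → σ} (hf : Computable f) (hg : Computable₂ g) :
    Computable (fun a => ((f a).map (g a)).sum) := by
  -- partial sums by recursion on the index
  have hrec : Computable (fun a : α => Nat.rec (motive := fun _ => σ) (0 : σ)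
      (fun i s => s + (match (f a)[i]? with
        | some b => g a b
        | none => 0)) (f a).length) := by
    refine Computable.nat_rec (f := fun a => (f a).length) (g := fun _ => (0 : σ))
      (h := fun a p => p.2 + (match (f a)[p.1]? with
        | some b => g a b
        | none => 0)) (Computable.list_length.comp hf) (Computable.const _) ?_
    refine hadd.comp (Computable.snd.comp Computable.snd) ?_
    have hget : Computable (fun p : α × ℕ × σ => (f p.1)[p.2.1]?) :=
      Computable.list_getElem?.comp (hf.comp Computable.fst)
        (Computable.fst.comp Computable.snd)
    have := Computable.option_casesOn (σ := σ) hget (f := fun _ => (0 : σ))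
      (g := fun p b => g p.1 b) (Computable.const _)
      (hg.comp (Computable.fst.comp Computable.fst) Computable.snd)
    refine this.of_eq ?_
    intro p
    cases (f p.1)[p.2.1]? <;> rfl
  refine hrec.of_eq ?_
  intro a
  -- invariant
  have key : ∀ i, Nat.rec (motive := fun _ => σ) (0 : σ)
      (fun i s => s + (match (f a)[i]? with
        | some b => g a b
        | none => 0)) i = (((f a).take i).map (g a)).sum := by
    intro i
    induction i with
    | zero => simp
    | succ i ih =>
      simp only [ih]
      rw [List.take_add_one]
      cases h : (f a)[i]? with
      | none => simp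
      | some b => simp
  rw [key, List.take_length]

theorem Computable.nat_pow' {f g : α → ℕ} (hf : Computable f) (hg : Computable g) :
    Computable (fun a => f a ^ g a) := by
  have : Primrec₂ (fun x y : ℕ => x ^ y) := Primrec₂.unpaired'.1 Nat.Primrec.pow
  exact this.to_comp.comp hf hg

theorem Computable.qpow {f : α → ℚ} {g : α → ℕ} (hf : Computable f) (hg : Computable g) :
    Computable (fun a => f a ^ g a) := by
  have : Computable (fun a => Nat.rec (motive := fun _ => ℚ) (1 : ℚ)
      (fun _ s => s * f a) (g a)) := by
    refine Computable.nat_rec (f := g) (g := fun _ => (1 : ℚ)) (h := fun a p => p.2 * f a)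
      hg (Computable.const _) ?_
    exact Computable.qmul (Computable.snd.comp Computable.snd) (hf.comp Computable.fst)
  refine this.of_eq ?_
  intro a
  generalize g a = n
  induction n with
  | zero => simp
  | succ n ih => simp only [ih, pow_succ]

theorem computable_factorial : Computable Nat.factorial := by
  have : Computable (fun n : ℕ => Nat.rec (motive := fun _ => ℕ) 1
      (fun i s => (i + 1) * s) n) := by
    refine Computable.nat_rec (f := fun n => n) (g := fun _ => 1)
      (h := fun _ p => (p.1 + 1) * p.2) Computable.id (Computable.const _) ?_
    refine comp_nat_mul (Computable.succ.comp (Computable.fst.comp Computable.snd))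
      (Computable.snd.comp Computable.snd)
  refine this.of_eq ?_
  intro n
  induction n with
  | zero => rfl
  | succ n ih => simp only [ih, Nat.factorial_succ]

/-- Sum over `Finset.range` -/
theorem computable_sum_range {f : α → ℕ → ℚ} {N : α → ℕ} (hf : Computable₂ f)
    (hN : Computable N) : Computable (fun a => ∑ m ∈ Finset.range (N a), f a m) := by
  have : Computable (fun a => Nat.rec (motive := fun _ => ℚ) (0 : ℚ)
      (fun i s => s + f a i) (N a)) := by
    refine Computable.nat_rec (f := N) (g := fun _ => (0 : ℚ)) (h := fun a p => p.2 + f a p.1)
      hN (Computable.const _) ?_
    exact Computable.qadd (Computable.snd.comp Computable.snd)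
      (hf.comp (Computable.fst) (Computable.fst.comp Computable.snd))
  refine this.of_eq ?_
  intro a
  generalize N a = n
  induction n with
  | zero => simp
  | succ n ih => simp only [ih, Finset.sum_range_succ]

/-- building a function on `Fin 3` -/
theorem computable_fin3 {f : Fin 3 → α → σ} (hf : ∀ i, Computable (f i)) :
    Computable (fun a => fun i => f i a) := by
  have h := Computable.vector_ofFn hf
  have h2 := Computable.encode_iff.2 h
  exact Computable.encode_iff.1 h2

/-- evaluating at a fixed coordinate -/
theorem computable_fin3_app {f : α → Fin 3 → σ} (hf : Computable f) (i : Fin 3) :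
    Computable (fun a => f a i) := by
  exact Computable.fin_app.comp hf (Computable.const i)

end

end Crest.Agent.Lib.BoxFlow
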