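import Crest.Agent.Lib.BoxFlow.ChiEff

/-! Computable families of reals and effective univariate functions. -/

set_option autoImplicit false

namespace Crest.Agent.Lib.BoxFlow

open scoped ContDiff

section CR

variable {X Y : Type*} [Primcodable X] [Primcodable Y]

/-- A computable family of reals with computable bound. -/
def CR (a : X → ℝ) : Prop :=
  ∃ (A : X × ℕ → ℚ) (B : X → ℕ), Computable A ∧ Computable B ∧
    (∀ x n, |a x - (A (x, n) : ℝ)| ≤ 1 / ((n : ℝ) + 1)) ∧ ∀ x, |a x| ≤ (B x : ℝ)

theorem CR.comp {a : X → ℝ} (ha : CR a) {f : Y → X} (hf : Computable f) :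
    CR (fun y => a (f y)) := by
  obtain ⟨A, B, hA, hB, h1, h2⟩ := ha
  refine ⟨fun p => A (f p.1, p.2), fun y => B (f y), ?_, hB.comp hf, fun y n => h1 _ _,
    fun y => h2 _⟩
  exact hA.comp ((hf.comp Computable.fst).pair Computable.snd)

theorem CR.ofQ {g : X → ℚ} (hg : Computable g) : CR (fun x => (g x : ℝ)) := by
  refine ⟨fun p => g p.1, fun x => qub |g x|, hg.comp Computable.fst,
    Computable.qub' (Computable.qabs hg), ?_, ?_⟩
  · intro x n
    simp only [sub_self, abs_zero]
    positivity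
  · intro x
    have := le_qub |g x|
    have h2 : ((|g x| : ℚ) : ℝ) ≤ ((qub |g x| : ℚ) : ℝ) := by exact_mod_cast this
    push_cast at h2
    exact h2

theorem CR.const (q : ℚ) : CR (fun _ : X => (q : ℝ)) := CR.ofQ (Computable.const q)

theorem CR.add {a b : X → ℝ} (ha : CR a) (hb : CR b) : CR (fun x => a x + b x) := by
  obtain ⟨A, B, hA, hB, h1, h2⟩ := ha
  obtain ⟨A', B', hA', hB', h1', h2'⟩ := hb
  refine ⟨fun p => A (p.1, 2 * p.2 + 1) + A' (p.1, 2 * p.2 + 1), fun x => B x + B' x,
    ?_, comp_nat_add hB hB', ?_, ?_⟩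
  · have hm : Computable (fun p : X × ℕ => 2 * p.2 + 1) :=
      Computable.succ.comp (comp_nat_mul (Computable.const 2) Computable.snd)
    exact Computable.qadd (hA.comp (Computable.fst.pair hm)) (hA'.comp (Computable.fst.pair hm))
  · intro x n
    have e1 := h1 x (2 * n + 1)
    have e2 := h1' x (2 * n + 1)
    push_cast at e1 e2 ⊢
    have hn : (0 : ℝ) < (n : ℝ) + 1 := by positivity
    have h3 : 1 / (2 * (n : ℝ) + 1 + 1) + 1 / (2 * (n : ℝ) + 1 + 1) = 1 / ((n : ℝ) + 1) := by
      field_simp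
      ring
    calc |a x + b x - ((A (x, 2 * n + 1) : ℝ) + (A' (x, 2 * n + 1) : ℝ))|
        = |(a x - (A (x, 2 * n + 1) : ℝ)) + (b x - (A' (x, 2 * n + 1) : ℝ))| := by ring_nf
      _ ≤ _ := abs_add_le _ _
      _ ≤ _ := add_le_add e1 e2
      _ = _ := h3
  · intro x
    push_cast
    exact (abs_add_le _ _).trans (add_le_add (h2 x) (h2' x))

theorem CR.mul {a b : X → ℝ} (ha : CR a) (hb : CR b) : CR (fun x => a x * b x) := by
  obtain ⟨A, B, hA, hB, h1, h2⟩ := ha
  obtain ⟨A', B', hA', hB', h1', h2'⟩ := hb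
  refine ⟨fun p => A (p.1, (B p.1 + B' p.1 + 1) * (p.2 + 1)) *
      A' (p.1, (B p.1 + B' p.1 + 1) * (p.2 + 1)), fun x => B x * B' x, ?_,
    comp_nat_mul hB hB', ?_, ?_⟩
  · have hm : Computable (fun p : X × ℕ => (B p.1 + B' p.1 + 1) * (p.2 + 1)) :=
      comp_nat_mul (Computable.succ.comp (comp_nat_add (hB.comp Computable.fst)
        (hB'.comp Computable.fst))) (Computable.succ.comp Computable.snd)
    exact Computable.qmul (hA.comp (Computable.fst.pair hm)) (hA'.comp (Computable.fst.pair hm))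
  · intro x n
    set m := (B x + B' x + 1) * (n + 1) with hm
    have e1 := h1 x m
    have e2 := h1' x m
    have b1 := h2 x
    have b2 := h2' x
    push_cast
    set s := (A (x, m) : ℝ)
    set t := (A' (x, m) : ℝ)
    have hmr : (m : ℝ) = ((B x : ℝ) + B' x + 1) * ((n : ℝ) + 1) := by
      rw [hm]; push_cast; ring
    have hn : (0 : ℝ) < (n : ℝ) + 1 := by positivity
    have hB0 : (0 : ℝ) ≤ (B x : ℝ) := by positivity
    have hB0' : (0 : ℝ) ≤ (B' x : ℝ) := by positivity
    have hm1 : (0 : ℝ) < (m : ℝ) + 1 := by positivity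
    have hle1 : 1 / ((m : ℝ) + 1) ≤ 1 := by
      rw [div_le_one hm1]
      have : (0 : ℝ) ≤ m := by positivity
      linarith
    have ht : |t| ≤ (B' x : ℝ) + 1 := by
      have : |t| ≤ |b x| + |b x - t| := by
        have := abs_sub_abs_le_abs_sub t (b x)
        rw [abs_sub_comm t (b x)] at this
        linarith
      linarith
    have e : a x * b x - s * t = (a x - s) * t + a x * (b x - t) := by ring
    rw [e]
    refine (abs_add_le _ _).trans ?_
    rw [abs_mul, abs_mul]
    have h3 : |a x - s| * |t| ≤ (1 / ((m : ℝ) + 1)) * ((B' x : ℝ) + 1) :=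
      mul_le_mul e1 ht (abs_nonneg _) (by positivity)
    have h4 : |a x| * |b x - t| ≤ (B x : ℝ) * (1 / ((m : ℝ) + 1)) :=
      mul_le_mul b1 e2 (abs_nonneg _) hB0
    have h5 : (1 / ((m : ℝ) + 1)) * ((B' x : ℝ) + 1) + (B x : ℝ) * (1 / ((m : ℝ) + 1)) ≤
        1 / ((n : ℝ) + 1) := by
      have e5 : (1 / ((m : ℝ) + 1)) * ((B' x : ℝ) + 1) + (B x : ℝ) * (1 / ((m : ℝ) + 1)) =
          ((B x : ℝ) + B' x + 1) / ((m : ℝ) + 1) := by ring
      rw [e5, div_le_div_iff₀ hm1 hn, hmr]
      linarith
    linarith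
  · intro x
    push_cast
    rw [abs_mul]
    exact mul_le_mul (h2 x) (h2' x) (abs_nonneg _) (by positivity)

theorem CR.neg {a : X → ℝ} (ha : CR a) : CR (fun x => - a x) := by
  have := (CR.const (X := X) (-1)).mul ha
  simpa using this

theorem CR.sub {a b : X → ℝ} (ha : CR a) (hb : CR b) : CR (fun x => a x - b x) := by
  have := ha.add hb.neg
  simpa [sub_eq_add_neg] using this

theorem CR.congr {a b : X → ℝ} (ha : CR a) (h : ∀ x, a x = b x) : CR b := by
  have : a = b := funext h
  rwa [← this]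

end CR

/-! ### Effective univariate functions -/

/-- An effective univariate smooth function with computable derivative bounds. -/
structure EffU (f : ℝ → ℝ) : Prop where
  smooth : ContDiff ℝ ∞ f
  approx : CR (fun p : ℕ × ℚ => iteratedDeriv p.1 f (p.2 : ℝ))
  bound : ∃ B : ℕ → ℕ, Computable B ∧ ∀ k x, |iteratedDeriv k f x| ≤ (B k : ℝ)

theorem effU_chi : EffU chi := by
  refine ⟨chi_contDiff, ?_, chiB, computable_chiB, abs_iteratedDeriv_chi_le'⟩
  refine ⟨fun p => chiE (p.1.1, p.1.2, p.2), fun p => chiB p.1, ?_,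
    computable_chiB.comp Computable.fst, ?_, ?_⟩
  · refine computable_chiE.comp ?_
    exact (Computable.fst.comp Computable.fst).pair
      ((Computable.snd.comp Computable.fst).pair Computable.snd)
  · intro p n
    exact chiE_spec p.1 p.2 n
  · intro p
    exact abs_iteratedDeriv_chi_le' p.1 _

theorem EffU.dv {f : ℝ → ℝ} (hf : EffU f) : EffU (deriv f) := by
  have hs : ContDiff ℝ ∞ (deriv f) := by
    have := (contDiff_infty_iff_deriv.1 hf.smooth).2
    exact this
  refine ⟨hs, ?_, ?_⟩
  · have h := hf.approx.comp (f := fun p : ℕ × ℚ => (p.1 + 1, p.2))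
      ((Computable.succ.comp Computable.fst).pair Computable.snd)
    refine h.congr ?_
    intro p
    rw [iteratedDeriv_succ']
  · obtain ⟨B, hB, h⟩ := hf.bound
    refine ⟨fun k => B (k + 1), hB.comp Computable.succ, ?_⟩
    intro k x
    rw [← iteratedDeriv_succ']
    exact h _ _

theorem EffU.add {f g : ℝ → ℝ} (hf : EffU f) (hg : EffU g) : EffU (fun x => f x + g x) := by
  have hfk : ∀ k : ℕ, ContDiff ℝ k f := fun k => hf.smooth.of_le (by exact_mod_cast le_top)
  have hgk : ∀ k : ℕ, ContDiff ℝ k g := fun k => hg.smooth.of_le (by exact_mod_cast le_top)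
  have e : ∀ k x, iteratedDeriv k (fun x => f x + g x) x =
      iteratedDeriv k f x + iteratedDeriv k g x := by
    intro k x
    have := iteratedDeriv_add (n := k) (x := x) (f := f) (g := g)
      ((hfk k).contDiffAt) ((hgk k).contDiffAt)
    exact this
  refine ⟨hf.smooth.add hg.smooth, ?_, ?_⟩
  · refine (hf.approx.add hg.approx).congr ?_
    intro p
    rw [e]
  · obtain ⟨B, hB, h⟩ := hf.bound
    obtain ⟨B', hB', h'⟩ := hg.bound
    refine ⟨fun k => B k + B' k, comp_nat_add hB hB', ?_⟩
    intro k x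
    rw [e]
    push_cast
    exact (abs_add_le _ _).trans (add_le_add (h k x) (h' k x))

theorem EffU.const_mul {f : ℝ → ℝ} (hf : EffU f) (c : ℚ) : EffU (fun x => (c : ℝ) * f x) := by
  have hfk : ∀ k : ℕ, ContDiff ℝ k f := fun k => hf.smooth.of_le (by exact_mod_cast le_top)
  have e : ∀ k x, iteratedDeriv k (fun x => (c : ℝ) * f x) x =
      (c : ℝ) * iteratedDeriv k f x := by
    intro k x
    simp
  refine ⟨contDiff_const.mul hf.smooth, ?_, ?_⟩
  · refine ((CR.const c).mul hf.approx).congr ?_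
    intro p
    rw [e]
  · obtain ⟨B, hB, h⟩ := hf.bound
    refine ⟨fun k => qub |c| * B k, comp_nat_mul (Computable.const _) hB, ?_⟩
    intro k x
    rw [e, abs_mul]
    push_cast
    have hc : |(c : ℝ)| ≤ (qub |c| : ℝ) := by
      have := le_qub |c|
      have h2 : ((|c| : ℚ) : ℝ) ≤ ((qub |c| : ℚ) : ℝ) := by exact_mod_cast this
      push_cast at h2
      exact h2
    exact mul_le_mul hc (h k x) (abs_nonneg _) (by positivity)

theorem EffU.sub {f g : ℝ → ℝ} (hf : EffU f) (hg : EffU g) : EffU (fun x => f x - g x) := by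
  have := hf.add (hg.const_mul (-1))
  convert this using 2
  push_cast
  ring

/-- Precomposition with a rational affine map. -/
theorem iteratedDeriv_affine {f : ℝ → ℝ} (hf : ContDiff ℝ ∞ f) (a b : ℝ) (k : ℕ) (x : ℝ) :
    iteratedDeriv k (fun x => f (a * x + b)) x = a ^ k * iteratedDeriv k f (a * x + b) := by
  induction k generalizing x with
  | zero => simp
  | succ k ih =>
    rw [iteratedDeriv_succ]
    have e : iteratedDeriv k (fun x => f (a * x + b)) =
        fun x => a ^ k * iteratedDeriv k f (a * x + b) := funext ih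
    rw [e, iteratedDeriv_succ]
    have h1 : DifferentiableAt ℝ (iteratedDeriv k f) (a * x + b) :=
      (hf.differentiable_iteratedDeriv k (by exact_mod_cast WithTop.coe_lt_top _)) _
    have h2 : HasDerivAt (fun x => a * x + b) a x := by
      simpa using ((hasDerivAt_id x).const_mul a).add_const b
    have h3 := (h1.hasDerivAt.comp x h2).const_mul (a ^ k)
    have h4 := h3.deriv
    simp only [Function.comp_def] at h4
    rw [h4]
    ring

theorem EffU.affine {f : ℝ → ℝ} (hf : EffU f) (a b : ℚ) :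
    EffU (fun x => f ((a : ℝ) * x + b)) := by
  have e := iteratedDeriv_affine hf.smooth (a : ℝ) (b : ℝ)
  refine ⟨hf.smooth.comp ((contDiff_const.mul contDiff_id).add contDiff_const), ?_, ?_⟩
  · have h1 : CR (fun p : ℕ × ℚ => ((a ^ p.1 : ℚ) : ℝ)) :=
      CR.ofQ (Computable.qpow (Computable.const a) Computable.fst)
    have h2 := hf.approx.comp (f := fun p : ℕ × ℚ => (p.1, a * p.2 + b))
      (Computable.fst.pair (Computable.qadd (Computable.qmul (Computable.const a) Computable.snd)
        (Computable.const b)))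
    refine (h1.mul h2).congr ?_
    intro p
    rw [e]
    push_cast
    rfl
  · obtain ⟨B, hB, h⟩ := hf.bound
    refine ⟨fun k => qub |a| ^ k * B k,
      comp_nat_mul (Computable.nat_pow' (Computable.const _) Computable.id) hB, ?_⟩
    intro k x
    rw [e, abs_mul, abs_pow]
    push_cast
    have hc : |(a : ℝ)| ≤ (qub |a| : ℝ) := by
      have := le_qub |a|
      have h2 : ((|a| : ℚ) : ℝ) ≤ ((qub |a| : ℚ) : ℝ) := by exact_mod_cast this
      push_cast at h2
      exact h2
    exact mul_le_mul (pow_le_pow_left₀ (abs_nonneg _) hc k) (h k _) (abs_nonneg _) (by positivity)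

/-- Vanishing outside a symmetric interval. -/
def VanishOut (f : ℝ → ℝ) (R : ℚ) : Prop := ∀ y : ℝ, (R : ℝ) < |y| → f y = 0

theorem VanishOut.iteratedDeriv {f : ℝ → ℝ} {R : ℚ} (hf : VanishOut f R) (k : ℕ) {y : ℝ}
    (hy : (R : ℝ) < |y|) : iteratedDeriv k f y = 0 := by
  have hopen : IsOpen {y : ℝ | (R : ℝ) < |y|} := isOpen_lt continuous_const continuous_abs
  have hev : f =ᶠ[nhds y] fun _ => 0 := by
    filter_upwards [hopen.mem_nhds hy] with z hz
    exact hf z hz
  rw [hev.iteratedDeriv_eq]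
  simp

theorem iteratedDeriv_mulId {f : ℝ → ℝ} (hf : ContDiff ℝ ∞ f) (c : ℝ) (k : ℕ) (y : ℝ) :
    iteratedDeriv (k + 1) (fun y => (y - c) * f y) y =
      (y - c) * iteratedDeriv (k + 1) f y + ((k : ℝ) + 1) * iteratedDeriv k f y := by
  have hd : ∀ (n : ℕ) (z : ℝ), HasDerivAt (iteratedDeriv n f) (iteratedDeriv (n + 1) f z) z := by
    intro n z
    have h1 : DifferentiableAt ℝ (iteratedDeriv n f) z :=
      (hf.differentiable_iteratedDeriv n (by exact_mod_cast WithTop.coe_lt_top _)) _
    rw [iteratedDeriv_succ]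
    exact h1.hasDerivAt
  have hid : ∀ z : ℝ, HasDerivAt (fun y : ℝ => y - c) 1 z := fun z =>
    (hasDerivAt_id z).sub_const c
  induction k generalizing y with
  | zero =>
    rw [iteratedDeriv_succ, iteratedDeriv_zero]
    have h0 := hd 0 y
    rw [show iteratedDeriv 0 f = f from iteratedDeriv_zero] at h0
    have := ((hid y).fun_mul h0).deriv
    rw [this]
    simp only [Nat.cast_zero, zero_add, iteratedDeriv_zero]
    ring
  | succ k ih =>
    rw [iteratedDeriv_succ]
    have e : iteratedDeriv (k + 1) (fun y => (y - c) * f y) =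
        fun y => (y - c) * iteratedDeriv (k + 1) f y + ((k : ℝ) + 1) * iteratedDeriv k f y :=
      funext ih
    rw [e]
    have h1 := (hid y).fun_mul (hd (k + 1) y)
    have h2 := (hd k y).const_mul ((k : ℝ) + 1)
    have := (h1.fun_add h2).deriv
    rw [this]
    push_cast
    ring

theorem iteratedDeriv_mulId' {f : ℝ → ℝ} (hf : ContDiff ℝ ∞ f) (c : ℝ) (k : ℕ) (y : ℝ) :
    iteratedDeriv k (fun y => (y - c) * f y) y =
      (y - c) * iteratedDeriv k f y + (k : ℝ) * iteratedDeriv (k - 1) f y := by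
  cases k with
  | zero => simp
  | succ k =>
    rw [iteratedDeriv_mulId hf]
    simp

theorem EffU.mulId {f : ℝ → ℝ} (hf : EffU f) {R : ℚ} (hR : VanishOut f R) (c : ℚ) :
    EffU (fun y => (y - (c : ℝ)) * f y) := by
  have e := iteratedDeriv_mulId' hf.smooth (c : ℝ)
  refine ⟨(contDiff_id.sub contDiff_const).mul hf.smooth, ?_, ?_⟩
  · have h1 : CR (fun p : ℕ × ℚ => ((p.2 - c : ℚ) : ℝ)) :=
      CR.ofQ (Computable.qsub Computable.snd (Computable.const c))
    have h2 : CR (fun p : ℕ × ℚ => ((p.1 : ℚ) : ℝ)) :=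
      CR.ofQ (Computable.natCast Computable.fst)
    have h3 := hf.approx.comp (f := fun p : ℕ × ℚ => (p.1 - 1, p.2))
      ((comp_nat_sub Computable.fst (Computable.const 1)).pair Computable.snd)
    refine ((h1.mul hf.approx).add (h2.mul h3)).congr ?_
    intro p
    rw [e]
    push_cast
    rfl
  · obtain ⟨B, hB, h⟩ := hf.bound
    refine ⟨fun k => qub (|R| + |c|) * B k + k * B (k - 1), ?_, ?_⟩
    · exact comp_nat_add (comp_nat_mul (Computable.const _) hB)
        (comp_nat_mul Computable.id (hB.comp (comp_nat_sub Computable.id (Computable.const 1))))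
    · intro k y
      rw [e]
      push_cast
      refine (abs_add_le _ _).trans (add_le_add ?_ ?_)
      · by_cases hy : (R : ℝ) < |y|
        · rw [hR.iteratedDeriv k hy]
          simp only [mul_zero, abs_zero]
          positivity
        · rw [abs_mul]
          refine mul_le_mul ?_ (h k y) (abs_nonneg _) (by positivity)
          have h1 := le_qub (|R| + |c|)
          have h2 : ((|R| + |c| : ℚ) : ℝ) ≤ ((qub (|R| + |c|) : ℚ) : ℝ) := by exact_mod_cast h1
          push_cast at h2
          have h3 : |y - (c : ℝ)| ≤ |y| + |(c : ℝ)| := abs_sub _ _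
          have h4 : |y| ≤ |(R : ℝ)| := (not_lt.1 hy).trans (le_abs_self _)
          linarith
      · rw [abs_mul, abs_of_nonneg (by positivity : (0 : ℝ) ≤ (k : ℝ))]
        exact mul_le_mul_of_nonneg_left (h _ y) (by positivity)

theorem VanishOut.mulId {f : ℝ → ℝ} {R : ℚ} (hf : VanishOut f R) (c : ℝ) :
    VanishOut (fun y => (y - c) * f y) R := by
  intro y hy
  simp only
  rw [hf y hy, mul_zero]

end Crest.Agent.Lib.BoxFlow
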