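import Crest.Agent.Lib.BoxFlow.Move

/-! Global flows of compactly supported fields and the chain lemma. -/

set_option autoImplicit false

namespace Crest.Agent.Lib.BoxFlow

open scoped ContDiff NNReal
open Crest.AnalysisR.BoxFlow

theorem lipschitz_time {U : Field} {C : ℝ≥0} (hC : LipschitzWith C U) (t : ℝ) :
    LipschitzWith C (fun y : Vec => U (t, y)) := by
  have := hC.comp (LipschitzWith.prodMk_left t)
  rw [mul_one] at this
  exact this

theorem exists_flow {U : Field} (hU : ContDiff ℝ ∞ U) (hc : HasCompactSupport U)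
    (hv : ∀ p : ℝ × Vec, p.1 ∉ Set.Icc (1 / 4 : ℝ) (3 / 4) → U p = 0) :
    ∃ Φ : ℝ → Vec → Vec, IsFlow U Φ := by
  obtain ⟨C, hC⟩ := hU.lipschitzWith_of_hasCompactSupport (𝕂 := ℝ) hc (by simp)
  obtain ⟨L, hL⟩ := hc.exists_bound_of_continuous hU.continuous
  let L' : ℝ≥0 := ⟨max L 0, le_max_right _ _⟩
  have hL' : ∀ p, ‖U p‖ ≤ (L' : ℝ) := fun p => (hL p).trans (le_max_left _ _)
  have ht0 : (0 : ℝ) ∈ Set.Icc (-1 : ℝ) 2 := by norm_num
  have hPL : ∀ x : Vec, IsPicardLindelof (fun t y => U (t, y)) (tmin := -1) (tmax := 2)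
      ⟨0, ht0⟩ x (2 * L') 0 L' C := by
    intro x
    refine ⟨?_, ?_, ?_, ?_⟩
    · intro t _
      exact (lipschitz_time hC t).lipschitzOnWith
    · intro y _
      have : Continuous (fun t : ℝ => U (t, y)) :=
        hU.continuous.comp (continuous_id.prodMk continuous_const)
      exact this.continuousOn
    · intro t _ y _
      exact hL' _
    · show (L' : ℝ) * max ((2 : ℝ) - 0) (0 - (-1)) ≤ ((2 * L' : ℝ≥0) : ℝ) - ((0 : ℝ≥0) : ℝ)
      have : max ((2 : ℝ) - 0) (0 - (-1)) = 2 := by norm_num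
      rw [this]
      push_cast
      linarith
  have hex : ∀ x : Vec, ∃ α : ℝ → Vec, α 0 = x ∧
      ∀ t ∈ Set.Icc (-1 : ℝ) 2, HasDerivWithinAt α (U (t, α t)) (Set.Icc (-1 : ℝ) 2) t := fun x =>
    (hPL x).exists_eq_forall_mem_Icc_hasDerivWithinAt₀
  choose α hα0 hα using hex
  have hαd : ∀ x t, t ∈ Set.Ioo (-1 : ℝ) 2 → HasDerivAt (α x) (U (t, α x t)) t := by
    intro x t ht
    exact (hα x t ⟨ht.1.le, ht.2.le⟩).hasDerivAt (Icc_mem_nhds ht.1 ht.2)
  -- constancy
  have hconst : ∀ x (a b : ℝ), -1 < a → b < 2 → a ≤ b → (∀ t ∈ Set.Icc a b, t ∉ Set.Icc (1 / 4 : ℝ) (3 / 4)) →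
      α x b = α x a := by
    intro x a b ha hb hab hout
    have hcont : ContinuousOn (α x) (Set.Icc a b) := by
      intro t ht
      exact (hαd x t ⟨by linarith [ht.1], by linarith [ht.2]⟩).continuousAt.continuousWithinAt
    have hder : ∀ t ∈ Set.Ico a b, HasDerivWithinAt (α x) 0 (Set.Ici t) t := by
      intro t ht
      have h1 := hαd x t ⟨by linarith [ht.1], by linarith [ht.2]⟩
      rw [hv (t, α x t) (hout t ⟨ht.1, ht.2.le⟩)] at h1
      exact h1.hasDerivWithinAt
    exact constant_of_has_deriv_right_zero hcont hder b ⟨hab, le_rfl⟩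
  have hleft : ∀ x t, t ∈ Set.Icc (-1 / 2 : ℝ) 0 → α x t = x := by
    intro x t ht
    have := hconst x t 0 (by linarith [ht.1]) (by norm_num) ht.2 (by
      intro s hs hs'
      have := hs.2
      have := hs'.1
      linarith)
    rw [← this, hα0]
  have hright : ∀ x t, t ∈ Set.Icc (1 : ℝ) (3 / 2) → α x t = α x 1 := by
    intro x t ht
    exact hconst x 1 t (by norm_num) (by linarith [ht.2]) ht.1 (by
      intro s hs hs'
      have := hs.1
      have := hs'.2
      linarith)
  refine ⟨fun t x => if t < 0 then x else if 1 < t then α x 1 else α x t, ?_, ?_⟩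
  · intro x
    simp [hα0]
  · intro t x
    -- the flow agrees with `α x` on `[-1/2, 3/2]`
    have hagree : ∀ s ∈ Set.Icc (-1 / 2 : ℝ) (3 / 2),
        (if s < 0 then x else if 1 < s then α x 1 else α x s) = α x s := by
      intro s hs
      by_cases h1 : s < 0
      · rw [if_pos h1, hleft x s ⟨hs.1, h1.le⟩]
      · rw [if_neg h1]
        by_cases h2 : 1 < s
        · rw [if_pos h2, hright x s ⟨h2.le, hs.2⟩]
        · rw [if_neg h2]
    by_cases ht1 : t ∈ Set.Ioo (-1 / 2 : ℝ) (3 / 2)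
    · have hev : (fun s => if s < 0 then x else if 1 < s then α x 1 else α x s) =ᶠ[nhds t] α x := by
        filter_upwards [Ioo_mem_nhds ht1.1 ht1.2] with s hs
        exact hagree s ⟨hs.1.le, hs.2.le⟩
      have h1 := hαd x t ⟨by linarith [ht1.1], by linarith [ht1.2]⟩
      rw [← hagree t ⟨ht1.1.le, ht1.2.le⟩] at h1
      exact h1.congr_of_eventuallyEq hev
    · simp only [Set.mem_Ioo, not_and_or, not_lt] at ht1
      have htout : t ∉ Set.Icc (1 / 4 : ℝ) (3 / 4) := by
        intro h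
        have h1 := h.1
        have h2 := h.2
        rcases ht1 with h3 | h3 <;> linarith
      rw [hv (t, _) htout]
      rcases ht1 with h3 | h3
      · have hev : (fun s => if s < 0 then x else if 1 < s then α x 1 else α x s) =ᶠ[nhds t]
            fun _ => x := by
          filter_upwards [Iio_mem_nhds (by linarith : t < 0)] with s hs
          have hs' : s < 0 := hs
          rw [if_pos hs']
        exact (hasDerivAt_const t x).congr_of_eventuallyEq hev
      · have hev : (fun s => if s < 0 then x else if 1 < s then α x 1 else α x s) =ᶠ[nhds t]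
            fun _ => α x 1 := by
          filter_upwards [Ioi_mem_nhds (by linarith : 1 < t)] with s hs
          have hs' : (1 : ℝ) < s := hs
          rw [if_neg (by linarith), if_pos hs']
        exact (hasDerivAt_const t _).congr_of_eventuallyEq hev

/-- The window lemma. -/
theorem flow_window {U : Field} {C : ℝ≥0} (hC : LipschitzWith C U) {Φ : ℝ → Vec → Vec}
    (hΦ : IsFlow U Φ) {a b : ℝ} (hab : a ≤ b) {θ θ' : ℝ → ℝ} {V : Vec → Vec}
    (hU : ∀ t ∈ Set.Icc a b, ∀ x, U (t, x) = θ' t • V x)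
    (hθ : ∀ t, HasDerivAt θ (θ' t) t) (hθ0 : θ a = 0) (hθ1 : θ b = 1)
    (hθm : ∀ t, 0 ≤ θ t ∧ θ t ≤ 1) {y w' : Vec} (hact : Acts V (Φ a y) w') : Φ b y = w' := by
  set w := Φ a y with hw
  have hf : ∀ t, HasDerivAt (fun s => Φ s y) (U (t, Φ t y)) t := fun t => hΦ.2 t y
  have hg : ∀ t ∈ Set.Icc a b, HasDerivAt (fun s => w + θ s • (w' - w)) (U (t, w + θ t • (w' - w))) t := by
    intro t ht
    rw [hU t ht, hact (θ t) (hθm t).1 (hθm t).2]
    exact ((hθ t).smul_const (w' - w)).const_add w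
  have huniq := ODE_solution_unique_of_mem_Icc_right (a := a) (b := b) (K := C)
    (v := fun t x => U (t, x)) (s := fun _ => Set.univ)
    (f := fun s => Φ s y) (g := fun s => w + θ s • (w' - w))
    (fun t _ => (lipschitz_time hC t).lipschitzOnWith)
    (fun t _ => (hf t).continuousAt.continuousWithinAt)
    (fun t _ => (hf t).hasDerivWithinAt)
    (fun _ _ => Set.mem_univ _)
    (fun t ht => (hg t ht).continuousAt.continuousWithinAt)
    (fun t ht => (hg t ⟨ht.1, ht.2.le⟩).hasDerivWithinAt)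
    (fun _ _ => Set.mem_univ _)
    (by simp [hθ0, hw])
  have := huniq ⟨hab, le_rfl⟩
  simp only at this
  rw [this, hθ1]
  simp

theorem flow_const {U : Field} {Φ : ℝ → Vec → Vec} (hΦ : IsFlow U Φ) {a b : ℝ} (hab : a ≤ b)
    (hU : ∀ t ∈ Set.Icc a b, ∀ x, U (t, x) = 0) (y : Vec) : Φ b y = Φ a y := by
  have hf : ∀ t, HasDerivAt (fun s => Φ s y) (U (t, Φ t y)) t := fun t => hΦ.2 t y
  have := constant_of_has_deriv_right_zero (f := fun s => Φ s y) (a := a) (b := b)
    (fun t _ => (hf t).continuousAt.continuousWithinAt)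
    (fun t ht => by
      have h1 := hf t
      rw [hU t ⟨ht.1, ht.2.le⟩] at h1
      exact h1.hasDerivWithinAt) b ⟨hab, le_rfl⟩
  exact this

/-! ### Time windows -/

/-- The time cutoff of the `i`-th window among `K + 1` windows. -/
noncomputable def tht (K i : ℕ) (t : ℝ) : ℝ :=
  chi (((2 * ((K : ℚ) + 1) : ℚ) : ℝ) * t + ((-(((K : ℚ) + 1) / 2) - i : ℚ) : ℝ))

/-- Its derivative -/
noncomputable def dtht (K i : ℕ) : ℝ → ℝ := deriv (tht K i)

theorem tht_arg (K i : ℕ) (t : ℝ) :
    ((2 * ((K : ℚ) + 1) : ℚ) : ℝ) * t + ((-(((K : ℚ) + 1) / 2) - i : ℚ) : ℝ) =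
      2 * ((K : ℝ) + 1) * (t - 1 / 4) - i := by
  push_cast
  ring

theorem hasDerivAt_tht (K i : ℕ) (t : ℝ) :
    HasDerivAt (tht K i) (2 * ((K : ℝ) + 1) * deriv chi (2 * ((K : ℝ) + 1) * (t - 1 / 4) - i)) t := by
  have h1 : HasDerivAt (fun t : ℝ => ((2 * ((K : ℚ) + 1) : ℚ) : ℝ) * t +
      ((-(((K : ℚ) + 1) / 2) - i : ℚ) : ℝ)) ((2 * ((K : ℚ) + 1) : ℚ) : ℝ) t := by
    simpa using ((hasDerivAt_id t).const_mul ((2 * ((K : ℚ) + 1) : ℚ) : ℝ)).add_const
      ((-(((K : ℚ) + 1) / 2) - i : ℚ) : ℝ)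
  have h2 := ((differentiable_chi _).hasDerivAt).comp t h1
  rw [tht_arg] at h2
  refine h2.congr_deriv ?_
  push_cast
  ring

theorem effU_tht (K i : ℕ) : EffU (tht K i) := effU_chi.affine _ _

theorem effU_dtht (K i : ℕ) : EffU (dtht K i) := (effU_tht K i).dv

theorem dtht_eq_zero (K i : ℕ) {t : ℝ}
    (h : 2 * ((K : ℝ) + 1) * (t - 1 / 4) - i ≤ 0 ∨ 1 ≤ 2 * ((K : ℝ) + 1) * (t - 1 / 4) - i) :
    dtht K i t = 0 := by
  unfold dtht
  rw [(hasDerivAt_tht K i t).deriv, deriv_chi_eq_zero h, mul_zero]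

/-- The left end of the `i`-th window -/
noncomputable def wT (K i : ℕ) : ℝ := 1 / 4 + (i : ℝ) / (2 * ((K : ℝ) + 1))

theorem wT_arg (K i j : ℕ) :
    2 * ((K : ℝ) + 1) * (wT K i - 1 / 4) - j = (i : ℝ) - j := by
  unfold wT
  have : (K : ℝ) + 1 ≠ 0 := by positivity
  field_simp
  ring

theorem tht_left (K i : ℕ) : tht K i (wT K i) = 0 := by
  unfold tht
  rw [tht_arg, wT_arg]
  simp [chi_nonpos]

theorem tht_right (K i : ℕ) : tht K i (wT K (i + 1)) = 1 := by
  unfold tht
  rw [tht_arg, wT_arg]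
  push_cast
  apply chi_one_le
  linarith

theorem wT_mono (K : ℕ) {i j : ℕ} (h : i ≤ j) : wT K i ≤ wT K j := by
  unfold wT
  have : (i : ℝ) ≤ j := by exact_mod_cast h
  have h2 : (0 : ℝ) < 2 * ((K : ℝ) + 1) := by positivity
  gcongr

/-- Outside its window the derivative vanishes. -/
theorem dtht_off (K i j : ℕ) (hij : i ≠ j) {t : ℝ} (ht : t ∈ Set.Icc (wT K i) (wT K (i + 1))) :
    dtht K j t = 0 := by
  apply dtht_eq_zero
  have hK : (0 : ℝ) < 2 * ((K : ℝ) + 1) := by positivity
  have h1 : 2 * ((K : ℝ) + 1) * (wT K i - 1 / 4) ≤ 2 * ((K : ℝ) + 1) * (t - 1 / 4) :=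
    mul_le_mul_of_nonneg_left (by linarith [ht.1]) hK.le
  have h2 : 2 * ((K : ℝ) + 1) * (t - 1 / 4) ≤ 2 * ((K : ℝ) + 1) * (wT K (i + 1) - 1 / 4) :=
    mul_le_mul_of_nonneg_left (by linarith [ht.2]) hK.le
  have e1 := wT_arg K i 0
  have e2 := wT_arg K (i + 1) 0
  simp only [Nat.cast_zero, sub_zero] at e1 e2
  rw [e1] at h1
  rw [e2] at h2
  rcases lt_or_gt_of_ne hij with h | h
  · left
    have : ((i : ℝ) + 1) ≤ j := by exact_mod_cast h
    push_cast at h2
    linarith
  · right
    have : ((j : ℝ) + 1) ≤ i := by exact_mod_cast h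
    linarith

theorem dtht_time_out (K i : ℕ) (hi : i < K) {t : ℝ} (ht : t ∉ Set.Icc (1 / 4 : ℝ) (3 / 4)) :
    dtht K i t = 0 := by
  apply dtht_eq_zero
  have hK : (0 : ℝ) < 2 * ((K : ℝ) + 1) := by positivity
  have hi' : (i : ℝ) + 1 ≤ K := by exact_mod_cast hi
  have hi0 : (0 : ℝ) ≤ i := by positivity
  simp only [Set.mem_Icc, not_and_or, not_le] at ht
  rcases ht with h | h
  · left
    have : 2 * ((K : ℝ) + 1) * (t - 1 / 4) ≤ 0 :=
      mul_nonpos_of_nonneg_of_nonpos hK.le (by linarith)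
    linarith
  · right
    have h1 : 2 * ((K : ℝ) + 1) * (1 / 2) ≤ 2 * ((K : ℝ) + 1) * (t - 1 / 4) :=
      mul_le_mul_of_nonneg_left (by linarith) hK.le
    linarith

theorem dtht_late (K i : ℕ) (hi : i < K) {t : ℝ} (ht : wT K K ≤ t) : dtht K i t = 0 := by
  apply dtht_eq_zero
  right
  have hK : (0 : ℝ) < 2 * ((K : ℝ) + 1) := by positivity
  have hi' : (i : ℝ) + 1 ≤ K := by exact_mod_cast hi
  have h1 : 2 * ((K : ℝ) + 1) * (wT K K - 1 / 4) ≤ 2 * ((K : ℝ) + 1) * (t - 1 / 4) :=
    mul_le_mul_of_nonneg_left (by linarith) hK.le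
  have e1 := wT_arg K K 0
  simp only [Nat.cast_zero, sub_zero] at e1
  rw [e1] at h1
  linarith

/-! ### Chains -/

/-- A chain of moves takes `y` to `z`. -/
def Chain : List Move → Vec → Vec → Prop
  | [], y, z => y = z
  | m :: ms, y, z => ∃ w, Acts m.field y w ∧ Chain ms w z

theorem Chain.append {A B : List Move} {x y z : Vec} (h1 : Chain A x y) (h2 : Chain B y z) :
    Chain (A ++ B) x z := by
  induction A generalizing x with
  | nil =>
    have : x = y := h1
    subst this
    exact h2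
  | cons m A ih =>
    obtain ⟨w, hw, hc⟩ := h1
    exact ⟨w, hw, ih hc⟩

theorem Chain.single {m : Move} {x y : Vec} (h : Acts m.field x y) : Chain [m] x y :=
  ⟨y, h, rfl⟩

/-- The reversal of a list of moves -/
def revMoves (ms : List Move) : List Move := (ms.map Move.neg).reverse

theorem Chain.rev {ms : List Move} {x y : Vec} (h : Chain ms x y) : Chain (revMoves ms) y x := by
  induction ms generalizing x with
  | nil =>
    have : x = y := h
    subst this
    rfl
  | cons m ms ih =>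
    obtain ⟨w, hw, hc⟩ := h
    unfold revMoves
    simp only [List.map_cons, List.reverse_cons]
    refine Chain.append (ih hc) (Chain.single (Acts.neg m.field_neg hw))

/-! ### The field of a list of moves -/

/-- The time-dependent field realizing a list of moves -/
noncomputable def Uof (ms : List Move) : Field :=
  ∑ i : Fin ms.length, (ms.get i).tmove (dtht ms.length i)

theorem Uof_apply (ms : List Move) (q : ℝ × Vec) :
    Uof ms q = ∑ i : Fin ms.length, dtht ms.length i q.1 • (ms.get i).field q.2 := by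
  unfold Uof
  rw [Finset.sum_apply]
  rfl

/-- What is required of the field. -/
structure Good (U : Field) : Prop where
  eff : EffF U
  cpt : HasCompactSupport U
  time : ∀ q : ℝ × Vec, q.1 ∉ Set.Icc (1 / 4 : ℝ) (3 / 4) → U q = 0
  div : ∀ q : ℝ × Vec, spaceDiv U q = 0

theorem Good.zero : Good (0 : Field) := by
  refine ⟨effF_zero, HasCompactSupport.zero, fun _ _ => rfl, ?_⟩
  intro q
  simp [spaceDiv]

theorem Good.add {U V : Field} (hU : Good U) (hV : Good V) : Good (U + V) := by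
  refine ⟨hU.eff.add hV.eff, hU.cpt.add hV.cpt, ?_, ?_⟩
  · intro q hq
    simp [hU.time q hq, hV.time q hq]
  · intro q
    have h := spaceDiv_add (U := U) (V := V) (hU.eff.1.differentiable (by simp))
      (hV.eff.1.differentiable (by simp)) q
    rw [hU.div, hV.div, add_zero] at h
    exact h

theorem good_Uof (ms : List Move) : Good (Uof ms) := by
  unfold Uof
  refine Finset.sum_induction _ Good (fun _ _ => Good.add) Good.zero ?_
  intro i _
  have hf := effU_dtht ms.length i
  refine ⟨(ms.get i).effF_tmove hf,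
    (ms.get i).hasCompactSupport_tmove (a := 1 / 4) (b := 3 / 4)
      (fun t ht => dtht_time_out _ _ i.2 ht), ?_, (ms.get i).spaceDiv_tmove hf⟩
  intro q hq
  unfold Move.tmove
  rw [dtht_time_out _ _ i.2 hq, zero_smul]

/-- the main statement about lists of moves. -/
theorem exists_flow_of_moves (ms : List Move) :
    ∃ Φ : ℝ → Vec → Vec, IsFlow (Uof ms) Φ ∧ ∀ y z, Chain ms y z → Φ 1 y = z := by
  have hgood := good_Uof ms
  obtain ⟨Φ, hΦ⟩ := exists_flow hgood.eff.1 hgood.cpt hgood.time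
  refine ⟨Φ, hΦ, ?_⟩
  obtain ⟨C, hC⟩ := hgood.eff.1.lipschitzWith_of_hasCompactSupport (𝕂 := ℝ) hgood.cpt (by simp)
  intro y z hchain
  set K := ms.length with hK
  have hUzero : ∀ t x, (∀ i : Fin K, dtht K i t = 0) → Uof ms (t, x) = 0 := by
    intro t x h
    rw [Uof_apply]
    apply Finset.sum_eq_zero
    intro i _
    show dtht K i t • _ = 0
    rw [h i, zero_smul]
  -- start
  have h0 : Φ (wT K 0) y = y := by
    have h1 : Φ (wT K 0) y = Φ 0 y := by
      refine flow_const hΦ (by unfold wT; norm_num) ?_ y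
      intro t ht x
      apply hUzero
      intro i
      apply dtht_eq_zero
      left
      have h2 : t - 1 / 4 ≤ 0 := by
        have := ht.2
        have h3 : wT K 0 = 1 / 4 := by unfold wT; simp
        linarith
      have h4 : 2 * ((K : ℝ) + 1) * (t - 1 / 4) ≤ 0 :=
        mul_nonpos_of_nonneg_of_nonpos (by positivity) h2
      have h5 : (0 : ℝ) ≤ ((i : ℕ) : ℝ) := by positivity
      linarith
    rw [h1, hΦ.1]
  -- windows
  have hstep : ∀ i, i ≤ K → Chain (ms.drop i) (Φ (wT K i) y) z := by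
    intro i
    induction i with
    | zero =>
      intro _
      rw [h0]
      exact hchain
    | succ i ih =>
      intro hi
      have hi' : i < K := hi
      have hc := ih hi'.le
      rw [List.drop_eq_getElem_cons hi'] at hc
      obtain ⟨w, hw, hc'⟩ := hc
      have hU : ∀ t ∈ Set.Icc (wT K i) (wT K (i + 1)), ∀ x,
          Uof ms (t, x) = dtht K i t • (ms.get ⟨i, hi'⟩).field x := by
        intro t ht x
        rw [Uof_apply]
        rw [Finset.sum_eq_single (⟨i, hi'⟩ : Fin ms.length)]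
        · intro j _ hj
          show dtht K j t • _ = 0
          rw [dtht_off K i j (fun h => hj (Fin.ext h.symm)) ht, zero_smul]
        · simp
      have hθ : ∀ t, HasDerivAt (tht K i) (dtht K i t) t := fun t =>
        (hasDerivAt_tht K i t).differentiableAt.hasDerivAt
      have hw' : Φ (wT K (i + 1)) y = w :=
        flow_window hC hΦ (wT_mono K (Nat.le_succ i)) hU hθ (tht_left K i) (tht_right K i)
          (fun t => ⟨chi_nonneg _, chi_le_one _⟩) hw
      rw [hw']
      exact hc'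
  have hfin := hstep K le_rfl
  have hdrop : ms.drop K = [] := List.drop_length
  rw [hdrop] at hfin
  have hfin' : Φ (wT K K) y = z := hfin
  rw [← hfin']
  refine flow_const hΦ ?_ ?_ y
  · unfold wT
    have h1 : (K : ℝ) / (2 * ((K : ℝ) + 1)) ≤ 1 / 2 := by
      rw [div_le_iff₀ (by positivity)]
      linarith
    linarith
  · intro t ht x
    apply hUzero
    intro i
    exact dtht_late K i i.2 ht.1

end Crest.Agent.Lib.BoxFlow
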