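import Crest.Agent.Lib.BoxFlow.Tensor

/-! Elementary divergence free moves. -/

set_option autoImplicit false

namespace Crest.Agent.Lib.BoxFlow

open scoped ContDiff
open Crest.AnalysisR.BoxFlow

/-- Space vectors. -/
abbrev Vec := Fin 3 → ℝ

theorem deriv_chi_eq_zero {x : ℝ} (hx : x ≤ 0 ∨ 1 ≤ x) : deriv chi x = 0 := by
  have := iteratedDeriv_chi_eq_zero 0 hx
  simpa using this

theorem differentiable_chi : Differentiable ℝ chi :=
  chi_contDiff.differentiable (by simp)

/-- The plateau function: one on `[lo, hi]`, zero outside `(lo - μ, hi + μ)`. -/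
noncomputable def pl (lo hi μ : ℚ) (y : ℝ) : ℝ :=
  chi (((μ⁻¹ : ℚ) : ℝ) * y + (((μ - lo) / μ : ℚ) : ℝ)) -
    chi (((μ⁻¹ : ℚ) : ℝ) * y + ((-hi / μ : ℚ) : ℝ))

theorem effU_pl (lo hi μ : ℚ) : EffU (pl lo hi μ) :=
  (effU_chi.affine _ _).sub (effU_chi.affine _ _)

section pl

variable {lo hi μ : ℚ}

theorem arg1_eq (hμ : 0 < μ) (y : ℝ) :
    ((μ⁻¹ : ℚ) : ℝ) * y + (((μ - lo) / μ : ℚ) : ℝ) = (y - lo + μ) / μ := by
  have : (μ : ℝ) ≠ 0 := by exact_mod_cast hμ.ne'
  push_cast
  field_simp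
  ring

theorem arg2_eq (hμ : 0 < μ) (y : ℝ) :
    ((μ⁻¹ : ℚ) : ℝ) * y + ((-hi / μ : ℚ) : ℝ) = (y - hi) / μ := by
  have : (μ : ℝ) ≠ 0 := by exact_mod_cast hμ.ne'
  push_cast
  field_simp
  ring

theorem hasDerivAt_pl (hμ : 0 < μ) (y : ℝ) :
    HasDerivAt (pl lo hi μ) (((μ⁻¹ : ℚ) : ℝ) *
      (deriv chi ((y - lo + μ) / μ) - deriv chi ((y - hi) / μ))) y := by
  have h1 : HasDerivAt (fun y : ℝ => ((μ⁻¹ : ℚ) : ℝ) * y + (((μ - lo) / μ : ℚ) : ℝ))
      ((μ⁻¹ : ℚ) : ℝ) y := by
    simpa using ((hasDerivAt_id y).const_mul ((μ⁻¹ : ℚ) : ℝ)).add_const (((μ - lo) / μ : ℚ) : ℝ)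
  have h2 : HasDerivAt (fun y : ℝ => ((μ⁻¹ : ℚ) : ℝ) * y + ((-hi / μ : ℚ) : ℝ))
      ((μ⁻¹ : ℚ) : ℝ) y := by
    simpa using ((hasDerivAt_id y).const_mul ((μ⁻¹ : ℚ) : ℝ)).add_const ((-hi / μ : ℚ) : ℝ)
  have h3 := ((differentiable_chi _).hasDerivAt).comp y h1
  have h4 := ((differentiable_chi _).hasDerivAt).comp y h2
  have h5 := h3.sub h4
  rw [arg1_eq hμ, arg2_eq hμ] at h5
  refine h5.congr_deriv ?_
  ring

theorem pl_eq (hμ : 0 < μ) (y : ℝ) :
    pl lo hi μ y = chi ((y - lo + μ) / μ) - chi ((y - hi) / μ) := by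
  unfold pl
  rw [arg1_eq hμ, arg2_eq hμ]

theorem args_left (hμ : 0 < μ) (hlh : lo ≤ hi) {y : ℝ} (hy : y ≤ lo - μ) :
    (y - lo + μ) / μ ≤ 0 ∧ (y - hi) / μ ≤ 0 := by
  have hμ' : (0 : ℝ) < μ := by exact_mod_cast hμ
  have hlh' : (lo : ℝ) ≤ hi := by exact_mod_cast hlh
  constructor
  · apply div_nonpos_of_nonpos_of_nonneg _ hμ'.le
    linarith
  · apply div_nonpos_of_nonpos_of_nonneg _ hμ'.le
    linarith

theorem args_right (hμ : 0 < μ) (hlh : lo ≤ hi) {y : ℝ} (hy : hi + μ ≤ y) :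
    1 ≤ (y - lo + μ) / μ ∧ 1 ≤ (y - hi) / μ := by
  have hμ' : (0 : ℝ) < μ := by exact_mod_cast hμ
  have hlh' : (lo : ℝ) ≤ hi := by exact_mod_cast hlh
  constructor
  · rw [le_div_iff₀ hμ']
    linarith
  · rw [le_div_iff₀ hμ']
    linarith

theorem args_mid (hμ : 0 < μ) {y : ℝ} (h1 : lo ≤ y) (h2 : y ≤ hi) :
    1 ≤ (y - lo + μ) / μ ∧ (y - hi) / μ ≤ 0 := by
  have hμ' : (0 : ℝ) < μ := by exact_mod_cast hμ
  constructor
  · rw [le_div_iff₀ hμ']
    linarith
  · apply div_nonpos_of_nonpos_of_nonneg _ hμ'.le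
    linarith

theorem pl_out (hμ : 0 < μ) (hlh : lo ≤ hi) {y : ℝ} (hy : y ≤ lo - μ ∨ hi + μ ≤ y) :
    pl lo hi μ y = 0 := by
  rw [pl_eq hμ]
  rcases hy with hy | hy
  · obtain ⟨h1, h2⟩ := args_left hμ hlh hy
    rw [chi_nonpos h1, chi_nonpos h2, sub_zero]
  · obtain ⟨h1, h2⟩ := args_right hμ hlh hy
    rw [chi_one_le h1, chi_one_le h2, sub_self]

theorem deriv_pl_out (hμ : 0 < μ) (hlh : lo ≤ hi) {y : ℝ} (hy : y ≤ lo - μ ∨ hi + μ ≤ y) :
    deriv (pl lo hi μ) y = 0 := by
  rw [(hasDerivAt_pl hμ y).deriv]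
  rcases hy with hy | hy
  · obtain ⟨h1, h2⟩ := args_left hμ hlh hy
    rw [deriv_chi_eq_zero (Or.inl h1), deriv_chi_eq_zero (Or.inl h2)]
    simp
  · obtain ⟨h1, h2⟩ := args_right hμ hlh hy
    rw [deriv_chi_eq_zero (Or.inr h1), deriv_chi_eq_zero (Or.inr h2)]
    simp

theorem pl_mid (hμ : 0 < μ) {y : ℝ} (h1 : lo ≤ y) (h2 : y ≤ hi) : pl lo hi μ y = 1 := by
  rw [pl_eq hμ]
  obtain ⟨h3, h4⟩ := args_mid hμ h1 h2
  rw [chi_one_le h3, chi_nonpos h4, sub_zero]

theorem deriv_pl_mid (hμ : 0 < μ) {y : ℝ} (h1 : lo ≤ y) (h2 : y ≤ hi) :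
    deriv (pl lo hi μ) y = 0 := by
  rw [(hasDerivAt_pl hμ y).deriv]
  obtain ⟨h3, h4⟩ := args_mid hμ h1 h2
  rw [deriv_chi_eq_zero (Or.inr h3), deriv_chi_eq_zero (Or.inl h4)]
  simp

theorem pl_vanishOut (hμ : 0 < μ) (hlh : lo ≤ hi) :
    VanishOut (pl lo hi μ) (|lo - μ| + |hi + μ|) := by
  intro y hy
  apply pl_out hμ hlh
  push_cast at hy
  have h1 := le_abs_self ((lo : ℝ) - μ)
  have h2 := neg_abs_le ((lo : ℝ) - μ)
  have h3 := le_abs_self ((hi : ℝ) + μ)
  have h4 := abs_nonneg ((lo : ℝ) - μ)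
  have h5 := abs_nonneg ((hi : ℝ) + μ)
  rcases lt_abs.1 hy with h | h
  · right; linarith
  · left; linarith

end pl

/-- An elementary move. It translates/shears the coordinate `l` in terms of the coordinate `p`
on the box `[lo, hi]` and vanishes outside the `μ`-neighbourhood of that box. -/
structure Move where
  /-- the moving coordinate -/
  l : Fin 3
  /-- the coordinate on which the displacement depends -/
  p : Fin 3
  hlp : l ≠ p
  /-- translation part -/
  d : ℚ
  /-- shear part -/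
  γ : ℚ
  /-- shear centre -/
  c : ℚ
  /-- lower corner of the plateau -/
  lo : Fin 3 → ℚ
  /-- upper corner of the plateau -/
  hi : Fin 3 → ℚ
  /-- margin -/
  μ : ℚ
  hμ : 0 < μ
  hlh : ∀ j, lo j ≤ hi j

namespace Move

variable (m : Move)

/-- The polynomial -/
noncomputable def Pf (y : ℝ) : ℝ := (m.d : ℝ) * (y - m.c) + ((m.γ / 2 : ℚ) : ℝ) * (y - m.c) ^ 2

/-- Plateau function in the coordinate `j` -/
noncomputable def A (j : Fin 3) : ℝ → ℝ := pl (m.lo j) (m.hi j) m.μ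

/-- The stream function factor -/
noncomputable def g (y : ℝ) : ℝ := m.Pf y * m.A m.p y

theorem hasDerivAt_Pf (y : ℝ) : HasDerivAt m.Pf ((m.d : ℝ) + m.γ * (y - m.c)) y := by
  have h1 : HasDerivAt (fun y : ℝ => y - (m.c : ℝ)) 1 y := (hasDerivAt_id y).sub_const _
  have h2 := (h1.const_mul (m.d : ℝ)).fun_add ((h1.fun_pow 2).const_mul ((m.γ / 2 : ℚ) : ℝ))
  refine h2.congr_deriv ?_
  push_cast
  ring

theorem differentiable_A (j : Fin 3) : Differentiable ℝ (m.A j) := fun y =>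
  (hasDerivAt_pl m.hμ y).differentiableAt

theorem hasDerivAt_g (y : ℝ) :
    HasDerivAt m.g (((m.d : ℝ) + m.γ * (y - m.c)) * m.A m.p y + m.Pf y * deriv (m.A m.p) y) y :=
  (m.hasDerivAt_Pf y).fun_mul ((m.differentiable_A m.p y).hasDerivAt)

theorem effU_A (j : Fin 3) : EffU (m.A j) := effU_pl _ _ _

theorem vanish_A (j : Fin 3) : VanishOut (m.A j) (|m.lo j - m.μ| + |m.hi j + m.μ|) :=
  pl_vanishOut m.hμ (m.hlh j)

theorem effU_g : EffU m.g := by
  have hv := m.vanish_A m.p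
  have h1 := (m.effU_A m.p).mulId hv m.c
  have h2 := h1.mulId (hv.mulId (m.c : ℝ)) m.c
  have h3 := (h1.const_mul m.d).add (h2.const_mul (m.γ / 2))
  have : m.g = fun y => (m.d : ℝ) * ((y - (m.c : ℝ)) * m.A m.p y) +
      ((m.γ / 2 : ℚ) : ℝ) * ((y - (m.c : ℝ)) * ((y - (m.c : ℝ)) * m.A m.p y)) := by
    funext y
    unfold g Pf
    ring
  rw [this]
  exact h3

/-- The three univariate factors of the component along `l`. -/
noncomputable def Gl (j : Fin 3) : ℝ → ℝ := if j = m.p then deriv m.g else m.A j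

/-- The three univariate factors of the component along `p`. -/
noncomputable def Gp (j : Fin 3) : ℝ → ℝ :=
  if j = m.l then (fun y => ((-1 : ℚ) : ℝ) * deriv (m.A m.l) y)
  else if j = m.p then m.g else m.A j

theorem effU_Gl (j : Fin 3) : EffU (m.Gl j) := by
  unfold Gl
  split_ifs
  · exact m.effU_g.dv
  · exact m.effU_A j

theorem effU_Gp (j : Fin 3) : EffU (m.Gp j) := by
  unfold Gp
  split_ifs
  · exact (m.effU_A _).dv.const_mul (-1)
  · exact m.effU_g
  · exact m.effU_A j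

end Move

/-- product of three coordinate factors -/
noncomputable def prod3 (G : Fin 3 → ℝ → ℝ) (x : Vec) : ℝ := G 0 (x 0) * G 1 (x 1) * G 2 (x 2)

theorem prod3_eq_zero {G : Fin 3 → ℝ → ℝ} {x : Vec} (j : Fin 3) (h : G j (x j) = 0) :
    prod3 G x = 0 := by
  unfold prod3
  fin_cases j
  · simp only [Fin.zero_eta] at h; simp [h]
  · simp only [Fin.mk_one] at h; simp [h]
  · simp only [Fin.reduceFinMk] at h; simp [h]

theorem prod3_eq_single {G : Fin 3 → ℝ → ℝ} {x : Vec} (p : Fin 3)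
    (h : ∀ j, j ≠ p → G j (x j) = 1) : prod3 G x = G p (x p) := by
  unfold prod3
  have h0 := h 0
  have h1 := h 1
  have h2 := h 2
  fin_cases p <;> simp_all

namespace Move

variable (m : Move)

/-- The (time independent) vector field of a move. -/
noncomputable def field (x : Vec) : Vec :=
  prod3 m.Gl x • (Pi.single m.l 1 : Vec) + prod3 m.Gp x • (Pi.single m.p 1 : Vec)

/-- `x` lies outside the support box. -/
def Off (x : Vec) : Prop := ∃ j, x j ≤ m.lo j - m.μ ∨ m.hi j + m.μ ≤ x j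

/-- `x` lies in the plateau. -/
def On (x : Vec) : Prop := ∀ j, (m.lo j : ℝ) ≤ x j ∧ x j ≤ m.hi j

theorem field_off {x : Vec} (h : m.Off x) : m.field x = 0 := by
  obtain ⟨j, hj⟩ := h
  have hA : m.A j (x j) = 0 := pl_out m.hμ (m.hlh j) hj
  have hdA : deriv (m.A j) (x j) = 0 := deriv_pl_out m.hμ (m.hlh j) hj
  have hl : prod3 m.Gl x = 0 := by
    apply prod3_eq_zero j
    unfold Gl
    split_ifs with h1
    · subst h1
      rw [(m.hasDerivAt_g _).deriv, hA, hdA]
      simp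
    · exact hA
  have hp : prod3 m.Gp x = 0 := by
    apply prod3_eq_zero j
    unfold Gp
    split_ifs with h1 h2
    · subst h1
      simp only
      rw [hdA, mul_zero]
    · subst h2
      unfold g
      rw [hA, mul_zero]
    · exact hA
  unfold field
  rw [hl, hp]
  simp

theorem field_on {x : Vec} (h : m.On x) :
    m.field x = ((m.d : ℝ) + m.γ * (x m.p - m.c)) • (Pi.single m.l 1 : Vec) := by
  have hA : ∀ j, m.A j (x j) = 1 := fun j => pl_mid m.hμ (h j).1 (h j).2
  have hdA : ∀ j, deriv (m.A j) (x j) = 0 := fun j => deriv_pl_mid m.hμ (h j).1 (h j).2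
  have hl : prod3 m.Gl x = (m.d : ℝ) + m.γ * (x m.p - m.c) := by
    rw [prod3_eq_single m.p]
    · unfold Gl
      rw [if_pos rfl, (m.hasDerivAt_g _).deriv, hA, hdA]
      ring
    · intro j hj
      unfold Gl
      rw [if_neg hj, hA]
  have hp : prod3 m.Gp x = 0 := by
    apply prod3_eq_zero m.l
    unfold Gp
    rw [if_pos rfl, hdA, mul_zero]
  unfold field
  rw [hl, hp]
  simp

/-- The time dependent version of a move -/
noncomputable def tmove (f : ℝ → ℝ) : Field := fun p => f p.1 • m.field p.2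

/-- The tensor factors of the `l` component. -/
noncomputable def Hl (f : ℝ → ℝ) : Fin 4 → ℝ → ℝ := fun i => Fin.cases f m.Gl i

/-- The tensor factors of the `p` component. -/
noncomputable def Hp (f : ℝ → ℝ) : Fin 4 → ℝ → ℝ := fun i => Fin.cases f m.Gp i

theorem tens_cases (f : ℝ → ℝ) (G : Fin 3 → ℝ → ℝ) (q : ℝ × Vec) :
    tens (fun i => Fin.cases f G i) q = f q.1 * prod3 G q.2 := by
  unfold tens prod3
  simp only [Fin.cases_zero]
  have h1 : (1 : Fin 4) = Fin.succ 0 := rfl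
  have h2 : (2 : Fin 4) = Fin.succ 1 := rfl
  have h3 : (3 : Fin 4) = Fin.succ 2 := rfl
  rw [h1, h2, h3]
  simp only [Fin.cases_succ]
  ring

theorem tmove_eq (f : ℝ → ℝ) :
    m.tmove f = fun q => tensF (m.Hl f) m.l q + tensF (m.Hp f) m.p q := by
  funext q
  unfold tmove field tensF Hl Hp
  rw [tens_cases, tens_cases, smul_add, smul_smul, smul_smul]

theorem effU_Hl {f : ℝ → ℝ} (hf : EffU f) (i : Fin 4) : EffU (m.Hl f i) := by
  unfold Hl
  refine Fin.cases ?_ ?_ i
  · exact hf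
  · intro j
    exact m.effU_Gl j

theorem effU_Hp {f : ℝ → ℝ} (hf : EffU f) (i : Fin 4) : EffU (m.Hp f i) := by
  unfold Hp
  refine Fin.cases ?_ ?_ i
  · exact hf
  · intro j
    exact m.effU_Gp j

theorem effF_tmove {f : ℝ → ℝ} (hf : EffU f) : EffF (m.tmove f) := by
  rw [tmove_eq]
  exact (effF_tensF (m.effU_Hl hf) _).add (effF_tensF (m.effU_Hp hf) _)

end Move

theorem prod3_neg {G G' : Fin 3 → ℝ → ℝ} (x : Vec) (l : Fin 3) (h1 : ∀ j, j ≠ l → G j = G' j)
    (h2 : ∀ y, G l y = - G' l y) : prod3 G x = - prod3 G' x := by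
  unfold prod3
  have h0 := h1 0
  have h1' := h1 1
  have h2' := h1 2
  fin_cases l
  · simp only [Fin.zero_eta] at h2
    rw [h2, h1' (by decide), h2' (by decide)]
    ring
  · simp only [Fin.mk_one] at h2
    rw [h2, h0 (by decide), h2' (by decide)]
    ring
  · simp only [Fin.reduceFinMk] at h2
    rw [h2, h0 (by decide), h1' (by decide)]
    ring

theorem direction_succ (j : Fin 3) : direction j.succ = ((0 : ℝ), (Pi.single j 1 : Vec)) := by
  unfold direction
  rw [dif_neg (Fin.succ_ne_zero j)]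
  simp

theorem differentiable_tensF {H : Fin 4 → ℝ → ℝ} (hH : ∀ i, ContDiff ℝ ∞ (H i)) (e : Fin 3) :
    Differentiable ℝ (tensF H e) :=
  (contDiff_tensF hH e).differentiable (by simp)

theorem spaceDiv_tensF {H : Fin 4 → ℝ → ℝ} (hH : ∀ i, Differentiable ℝ (H i)) (e : Fin 3)
    (q : ℝ × Vec) :
    spaceDiv (tensF H e) q = tens (Function.update H e.succ (deriv (H e.succ))) q := by
  unfold spaceDiv
  rw [Finset.sum_eq_single e]
  · rw [← direction_succ, fderiv_tensF hH]
    simp [tensF]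
  · intro j _ hj
    rw [← direction_succ, fderiv_tensF hH]
    simp [tensF, hj]
  · simp

theorem spaceDiv_add {U V : Field} (hU : Differentiable ℝ U) (hV : Differentiable ℝ V)
    (q : ℝ × Vec) :
    spaceDiv (fun p => U p + V p) q = spaceDiv U q + spaceDiv V q := by
  unfold spaceDiv
  rw [← Finset.sum_add_distrib]
  refine Finset.sum_congr rfl ?_
  intro j _
  rw [fderiv_fun_add (hU q) (hV q)]
  rfl

theorem update_cases (f : ℝ → ℝ) (G : Fin 3 → ℝ → ℝ) (j : Fin 3) (G' : ℝ → ℝ) :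
    Function.update (fun i : Fin 4 => (Fin.cases f G i : ℝ → ℝ)) j.succ G' =
      fun i => Fin.cases f (Function.update G j G') i := by
  funext i
  refine Fin.cases ?_ ?_ i
  · rw [Function.update_of_ne (Fin.succ_ne_zero j).symm]
    simp
  · intro k
    by_cases hk : k = j
    · subst hk
      simp
    · rw [Function.update_of_ne (fun h => hk (Fin.succ_injective _ h))]
      simp [Function.update_of_ne hk]

namespace Move

variable (m : Move)

theorem contDiff_Hl {f : ℝ → ℝ} (hf : EffU f) (i : Fin 4) : ContDiff ℝ ∞ (m.Hl f i) :=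
  (m.effU_Hl hf i).smooth

theorem contDiff_Hp {f : ℝ → ℝ} (hf : EffU f) (i : Fin 4) : ContDiff ℝ ∞ (m.Hp f i) :=
  (m.effU_Hp hf i).smooth

theorem spaceDiv_tmove {f : ℝ → ℝ} (hf : EffU f) (q : ℝ × Vec) : spaceDiv (m.tmove f) q = 0 := by
  rw [tmove_eq, spaceDiv_add (differentiable_tensF (m.contDiff_Hl hf) _)
    (differentiable_tensF (m.contDiff_Hp hf) _)]
  rw [spaceDiv_tensF (fun i => (m.contDiff_Hl hf i).differentiable (by simp)),
    spaceDiv_tensF (fun i => (m.contDiff_Hp hf i).differentiable (by simp))]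
  have e1 : m.Hl f m.l.succ = m.A m.l := by
    simp [Hl, Gl, m.hlp]
  have e2 : m.Hp f m.p.succ = m.g := by
    simp [Hp, Gp, m.hlp.symm]
  rw [e1, e2]
  unfold Hl Hp
  rw [update_cases, update_cases, tens_cases, tens_cases]
  have := prod3_neg (G := Function.update m.Gl m.l (deriv (m.A m.l)))
    (G' := Function.update m.Gp m.p (deriv m.g)) q.2 m.l ?_ ?_
  · rw [this]
    ring
  · intro j hj
    rw [Function.update_of_ne hj]
    by_cases hjp : j = m.p
    · subst hjp
      simp [Gl]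
    · rw [Function.update_of_ne hjp]
      simp [Gl, Gp, hj, hjp]
  · intro y
    rw [Function.update_self, Function.update_of_ne m.hlp]
    simp [Gp]

theorem hasCompactSupport_tmove {f : ℝ → ℝ} {a b : ℝ} (hf : ∀ t, t ∉ Set.Icc a b → f t = 0) :
    HasCompactSupport (m.tmove f) := by
  let K : Set (ℝ × Vec) := Set.Icc a b ×ˢ
    Set.pi Set.univ (fun j => Set.Icc ((m.lo j : ℝ) - m.μ) ((m.hi j : ℝ) + m.μ))
  have hK : IsCompact K :=
    isCompact_Icc.prod (isCompact_univ_pi (fun j => isCompact_Icc))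
  refine HasCompactSupport.intro hK ?_
  intro q hq
  unfold tmove
  by_cases ht : q.1 ∈ Set.Icc a b
  · have hx : q.2 ∉ Set.pi Set.univ
        (fun j => Set.Icc ((m.lo j : ℝ) - m.μ) ((m.hi j : ℝ) + m.μ)) := by
      intro hx
      exact hq ⟨ht, hx⟩
    simp only [Set.mem_pi, Set.mem_univ, true_implies, not_forall] at hx
    obtain ⟨j, hj⟩ := hx
    have hoff : m.Off q.2 := by
      refine ⟨j, ?_⟩
      simp only [Set.mem_Icc, not_and_or, not_le] at hj
      rcases hj with h | h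
      · left; exact h.le
      · right; exact h.le
    rw [m.field_off hoff, smul_zero]
  · rw [hf _ ht, zero_smul]

/-- The reversed move. -/
def neg : Move := { m with d := -m.d, γ := -m.γ }

theorem neg_A (j : Fin 3) : m.neg.A j = m.A j := rfl

theorem neg_g : m.neg.g = fun y => - m.g y := by
  funext y
  unfold g Pf
  have : m.neg.A m.neg.p = m.A m.p := rfl
  rw [this]
  simp only [neg]
  push_cast
  ring

theorem field_neg (x : Vec) : m.neg.field x = - m.field x := by
  have e1 : prod3 m.neg.Gl x = - prod3 m.Gl x := by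
    apply prod3_neg x m.p
    · intro j hj
      show (if j = m.p then deriv m.neg.g else m.neg.A j) = _
      rw [if_neg hj]
      unfold Gl
      rw [if_neg hj, neg_A]
    · intro y
      show (if m.p = m.p then deriv m.neg.g else m.neg.A m.p) y = _
      rw [if_pos rfl, neg_g]
      unfold Gl
      rw [if_pos rfl]
      rw [(m.hasDerivAt_g y).deriv]
      exact (m.hasDerivAt_g y).fun_neg.deriv
  have e2 : prod3 m.neg.Gp x = - prod3 m.Gp x := by
    apply prod3_neg x m.p
    · intro j hj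
      show (if j = m.l then (fun y => ((-1 : ℚ) : ℝ) * deriv (m.neg.A m.l) y)
        else if j = m.p then m.neg.g else m.neg.A j) = _
      unfold Gp
      rw [if_neg hj, if_neg hj]
      by_cases hjl : j = m.l
      · rw [if_pos hjl, if_pos hjl]; rfl
      · rw [if_neg hjl, if_neg hjl]; rfl
    · intro y
      show (if m.p = m.l then (fun y => ((-1 : ℚ) : ℝ) * deriv (m.neg.A m.l) y)
        else if m.p = m.p then m.neg.g else m.neg.A m.p) y = _
      unfold Gp
      rw [if_neg m.hlp.symm, if_neg m.hlp.symm, if_pos rfl, if_pos rfl, neg_g]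
  unfold field
  have e3 : m.neg.l = m.l := rfl
  have e4 : m.neg.p = m.p := rfl
  rw [e1, e2, e3, e4, neg_smul, neg_smul, neg_add]

end Move

/-! ### Action on points -/

/-- `V` is constant, equal to `w' - w`, along the segment from `w` to `w'`. -/
def Acts (V : Vec → Vec) (w w' : Vec) : Prop :=
  ∀ τ : ℝ, 0 ≤ τ → τ ≤ 1 → V (w + τ • (w' - w)) = w' - w

theorem Acts.neg {V V' : Vec → Vec} (hV : ∀ x, V' x = - V x) {w w' : Vec} (h : Acts V w w') :
    Acts V' w' w := by
  intro τ h0 h1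
  rw [hV]
  have := h (1 - τ) (by linarith) (by linarith)
  have e : w' + τ • (w - w') = w + (1 - τ) • (w' - w) := by
    ext j
    simp only [Pi.add_apply, Pi.smul_apply, Pi.sub_apply, smul_eq_mul]
    ring
  rw [e, this]
  abel

namespace Move

variable (m : Move)

theorem acts_off {x : Vec} (h : m.Off x) : Acts m.field x x := by
  intro τ _ _
  simp only [sub_self, smul_zero, add_zero]
  exact m.field_off h

theorem acts_on {x x' : Vec} (h : m.On x) (h' : m.On x')
    (hx' : x' = Function.update x m.l (x m.l + ((m.d : ℝ) + m.γ * (x m.p - m.c)))) :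
    Acts m.field x x' := by
  have hdiff : x' - x = ((m.d : ℝ) + m.γ * (x m.p - m.c)) • (Pi.single m.l 1 : Vec) := by
    subst hx'
    ext j
    by_cases hj : j = m.l
    · subst hj
      simp
    · simp [hj]
  intro τ h0 h1
  have hon : m.On (x + τ • (x' - x)) := by
    intro j
    simp only [Pi.add_apply, Pi.smul_apply, Pi.sub_apply, smul_eq_mul]
    have h2 := h j
    have h3 := h' j
    constructor
    · nlinarith [h2.1, h3.1]
    · nlinarith [h2.2, h3.2]
  rw [m.field_on hon, hdiff]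
  congr 2
  simp only [Pi.add_apply, Pi.smul_apply, Pi.single_apply, smul_eq_mul]
  rw [if_neg m.hlp.symm]
  ring

end Move

end Crest.Agent.Lib.BoxFlow
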