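import Crest.Agent.Lib.BoxFlow.Flow

/-! Moving disjoint boxes out to far away parking slots, one at a time. -/

set_option autoImplicit false

namespace Crest.Agent.Lib.BoxFlow

/-- Membership in the rational box. -/
def InBox (c w : Fin 3 → ℚ) (y : Vec) : Prop := ∀ j, |y j - (c j : ℝ)| ≤ (w j : ℝ)

/-- Separation of two rational boxes along some axis. -/
def Sep (c w c' w' : Fin 3 → ℚ) : Prop := ∃ j, w j + w' j < |c j - c' j|

/-- Translation in the zeroth coordinate. -/
noncomputable def shift0 (y : Vec) (τ : ℝ) : Vec := Function.update y 0 (y 0 + τ)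

theorem chain_stationary {ms : List Move} {y : Vec} (h : ∀ m ∈ ms, m.Off y) : Chain ms y y := by
  induction ms with
  | nil => rfl
  | cons m ms ih =>
    exact ⟨y, m.acts_off (h m (by simp)), ih (fun m' hm' => h m' (by simp [hm']))⟩

/-- The move sending the box `(c, w)` to the right in coordinate `0`, to position `X`. -/
def peelMove (c w : Fin 3 → ℚ) (X μ : ℚ) (hμ : 0 < μ) (hw : ∀ j, 0 ≤ w j) (hX : c 0 ≤ X) : Move where
  l := 0
  p := 1
  hlp := by decide
  d := X - c 0
  γ := 0
  c := 0
  lo := fun j => c j - w j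
  hi := Function.update (fun j => c j + w j) 0 (X + w 0)
  μ := μ
  hμ := hμ
  hlh := by
    intro j
    by_cases hj : j = 0
    · subst hj
      simp only [Function.update_self]
      have := hw 0
      linarith
    · rw [Function.update_of_ne hj]
      have := hw j
      linarith

section peelMove

variable {c w : Fin 3 → ℚ} {X μ : ℚ} {hμ : 0 < μ} {hw : ∀ j, 0 ≤ w j} {hX : c 0 ≤ X}

theorem peelMove_acts {y : Vec} (hy : InBox c w y) :
    Acts (peelMove c w X μ hμ hw hX).field y (shift0 y ((X : ℝ) - c 0)) := by
  have hX' : (c 0 : ℝ) ≤ X := by exact_mod_cast hX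
  have hw' : ∀ j, (0 : ℝ) ≤ (w j : ℝ) := fun j => by exact_mod_cast hw j
  have hy' := fun j => abs_le.1 (hy j)
  refine Move.acts_on _ ?_ ?_ ?_
  · intro j
    by_cases hj : j = 0
    · subst hj
      simp only [peelMove, Function.update_self]
      push_cast
      have := hy' 0
      constructor <;> linarith [this.1, this.2]
    · simp only [peelMove, Function.update_of_ne hj]
      push_cast
      have := hy' j
      constructor <;> linarith [this.1, this.2]
  · intro j
    by_cases hj : j = 0
    · subst hj
      simp only [peelMove, Function.update_self, shift0]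
      push_cast
      have := hy' 0
      have := hw' 0
      constructor <;> linarith [(hy' 0).1, (hy' 0).2]
    · simp only [peelMove, Function.update_of_ne hj, shift0]
      push_cast
      have := hy' j
      constructor <;> linarith [this.1, this.2]
  · simp [peelMove, shift0]

theorem peelMove_off {c' w' : Fin 3 → ℚ} {y : Vec} (hy : InBox c' w' y)
    (hsep : Sep c (fun j => w j + μ) c' (fun j => w' j + μ))
    (hmax : c' 0 + w' 0 ≤ c 0 + w 0) (hw'0 : ∀ j, 0 ≤ w' j) :
    (peelMove c w X μ hμ hw hX).Off y := by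
  obtain ⟨t, ht⟩ := hsep
  simp only at ht
  have hy' := abs_le.1 (hy t)
  have hμ' : (0 : ℝ) < μ := by exact_mod_cast hμ
  rcases lt_abs.1 ht with h | h
  · -- the other box lies on the lower side along `t`
    refine ⟨t, Or.inl ?_⟩
    have h1 : ((w t + μ + (w' t + μ) : ℚ) : ℝ) < ((c t - c' t : ℚ) : ℝ) := by exact_mod_cast h
    push_cast at h1
    simp only [peelMove]
    push_cast
    linarith [hy'.2]
  · by_cases ht0 : t = 0
    · subst ht0
      exfalso
      have := hw'0 0
      have := hw 0
      linarith
    · refine ⟨t, Or.inr ?_⟩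
      have h1 : ((w t + μ + (w' t + μ) : ℚ) : ℝ) < ((-(c t - c' t) : ℚ) : ℝ) := by exact_mod_cast h
      push_cast at h1
      simp only [peelMove, Function.update_of_ne ht0]
      push_cast
      linarith [hy'.1]

end peelMove

theorem shift0_mem_high {y : Vec} {c w : Fin 3 → ℚ} (hy : InBox c w y) {X : ℚ} {B : ℝ}
    (h : B ≤ (X : ℝ) - w 0) : B ≤ shift0 y ((X : ℝ) - c 0) 0 := by
  simp only [shift0, Function.update_self]
  have := abs_le.1 (hy 0)
  linarith [this.1]

/-- Peeling. -/
theorem peel {ι : Type*} [DecidableEq ι] (c w : ι → Fin 3 → ℚ) (μ : ℚ) (hμ : 0 < μ)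
    (hw : ∀ i j, 0 ≤ w i j)
    (hsep : ∀ i i', i ≠ i' → Sep (c i) (fun j => w i j + μ) (c i') (fun j => w i' j + μ))
    (A G : ℚ) (hA : ∀ i, c i 0 + w i 0 + μ ≤ A) (hG : ∀ i, w i 0 + μ < G / 2) (s : Finset ι) :
    ∃ (ms : List Move) (X : ι → ℚ),
      (∀ i ∈ s, A + G / 2 ≤ X i ∧ X i ≤ A + G * s.card - G / 2) ∧
      (∀ i ∈ s, ∀ i' ∈ s, i ≠ i' → G ≤ |X i - X i'|) ∧
      (∀ m ∈ ms, m.hi 0 + m.μ ≤ A + G * s.card) ∧
      (∀ i ∈ s, ∀ y, InBox (c i) (w i) y → Chain ms y (shift0 y ((X i : ℝ) - c i 0))) := by
  induction hk : s.card generalizing s with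
  | zero =>
    have hs : s = ∅ := Finset.card_eq_zero.1 hk
    subst hs
    refine ⟨[], fun _ => 0, ?_, ?_, ?_, ?_⟩ <;> simp
  | succ k ih =>
    have hne : s.Nonempty := by
      rw [← Finset.card_pos]; omega
    obtain ⟨i₀, hi₀, hmax⟩ := Finset.exists_max_image s (fun i => c i 0 + w i 0) hne
    have hk' : (s.erase i₀).card = k := by
      rw [Finset.card_erase_of_mem hi₀, hk]; rfl
    obtain ⟨ms, X, h1, h2, h3, h4⟩ := ih (s.erase i₀) hk'
    have hG0 : ∀ i, 0 < G := fun i => by
      have := hw i 0
      linarith [hG i]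
    have hkq : (0 : ℚ) ≤ k := by positivity
    set X₀ : ℚ := A + G * k + G / 2 with hX₀
    have hG00 : 0 < G := hG0 i₀
    have hcX : c i₀ 0 ≤ X₀ := by
      have h5 := hA i₀
      have h6 := hw i₀ 0
      have h7 : 0 ≤ G * k := by positivity
      rw [hX₀]
      linarith
    let m₀ := peelMove (c i₀) (w i₀) X₀ μ hμ (hw i₀) hcX
    refine ⟨m₀ :: ms, Function.update X i₀ X₀, ?_, ?_, ?_, ?_⟩
    · intro i hi
      push_cast
      by_cases hii : i = i₀
      · subst hii
        rw [Function.update_self, hX₀]
        have h7 : 0 ≤ G * k := by positivity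
        constructor <;> nlinarith
      · rw [Function.update_of_ne hii]
        obtain ⟨h5, h6⟩ := h1 i (Finset.mem_erase.2 ⟨hii, hi⟩)
        constructor
        · exact h5
        · nlinarith
    · intro i hi i' hi' hne'
      by_cases hii : i = i₀
      · subst hii
        have hii' : i' ≠ i := Ne.symm hne'
        rw [Function.update_self, Function.update_of_ne hii']
        obtain ⟨h5, h6⟩ := h1 i' (Finset.mem_erase.2 ⟨hii', hi'⟩)
        rw [le_abs]
        left
        rw [hX₀]
        linarith
      · rw [Function.update_of_ne hii]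
        by_cases hii' : i' = i₀
        · subst hii'
          rw [Function.update_self]
          obtain ⟨h5, h6⟩ := h1 i (Finset.mem_erase.2 ⟨hii, hi⟩)
          rw [le_abs]
          right
          rw [hX₀]
          linarith
        · rw [Function.update_of_ne hii']
          exact h2 i (Finset.mem_erase.2 ⟨hii, hi⟩) i' (Finset.mem_erase.2 ⟨hii', hi'⟩) hne'
    · intro m hm
      push_cast
      rcases List.mem_cons.1 hm with hm | hm
      · subst hm
        simp only [m₀, peelMove, Function.update_self]
        have := hG i₀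
        rw [hX₀]
        nlinarith
      · have := h3 m hm
        nlinarith
    · intro i hi y hy
      by_cases hii : i = i₀
      · subst hii
        rw [Function.update_self]
        refine ⟨_, peelMove_acts hy, chain_stationary ?_⟩
        intro m hm
        refine ⟨0, Or.inr ?_⟩
        have h5 := h3 m hm
        have h6 : (m.hi 0 : ℝ) + m.μ ≤ (A : ℝ) + G * k := by
          have : ((m.hi 0 + m.μ : ℚ) : ℝ) ≤ ((A + G * k : ℚ) : ℝ) := by exact_mod_cast h5
          push_cast at this
          exact this
        refine le_trans h6 (shift0_mem_high hy ?_)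
        have h7 := hG i
        have h8 : ((w i 0 + μ : ℚ) : ℝ) < ((G / 2 : ℚ) : ℝ) := by exact_mod_cast h7
        have hμ' : (0 : ℝ) < μ := by exact_mod_cast hμ
        push_cast at h8
        rw [hX₀]
        push_cast
        linarith
      · rw [Function.update_of_ne hii]
        refine ⟨y, Move.acts_off _ ?_, h4 i (Finset.mem_erase.2 ⟨hii, hi⟩) y hy⟩
        exact peelMove_off hy (hsep i₀ i (Ne.symm hii)) (hmax i hi) (hw i)

end Crest.Agent.Lib.BoxFlow
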