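import Crest.Agent.Lib.BoxFlow.Transfer

/-! The global plan: thicken, peel out, transfer, and peel back in. -/

set_option autoImplicit false

namespace Crest.Agent.Lib.BoxFlow

open Crest.AnalysisR.BoxFlow
open scoped Topology

theorem sep_of_disjoint {c w c' w' : Fin 3 → ℚ} (h : Disjoint (box c w) (box c' w'))
    (hw : ∀ j, 0 ≤ w j) (hw' : ∀ j, 0 ≤ w' j) : Sep c w c' w' := by
  by_contra hcon
  unfold Sep at hcon
  push Not at hcon
  let x : Vec := fun j => max ((c j : ℝ) - w j) ((c' j : ℝ) - w' j)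
  have hcast : ∀ j, |(c j : ℝ) - c' j| ≤ (w j : ℝ) + w' j := by
    intro j
    have := hcon j
    exact_mod_cast this
  have hwr : ∀ j, (0 : ℝ) ≤ (w j : ℝ) := fun j => by exact_mod_cast hw j
  have hwr' : ∀ j, (0 : ℝ) ≤ (w' j : ℝ) := fun j => by exact_mod_cast hw' j
  have h1 : x ∈ box c w := by
    intro j
    have h2 := abs_le.1 (hcast j)
    have h3 := hwr j
    have h4 := hwr' j
    rw [abs_le]
    constructor
    · have : (c j : ℝ) - w j ≤ x j := le_max_left _ _
      linarith
    · have : x j ≤ (c j : ℝ) + w j := max_le (by linarith) (by linarith [h2.1, h2.2])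
      linarith
  have h2 : x ∈ box c' w' := by
    intro j
    have h2 := abs_le.1 (hcast j)
    have h3 := hwr j
    have h4 := hwr' j
    rw [abs_le]
    constructor
    · have : (c' j : ℝ) - w' j ≤ x j := le_max_right _ _
      linarith
    · have : x j ≤ (c' j : ℝ) + w' j := max_le (by linarith [h2.1, h2.2]) (by linarith)
      linarith
  exact Set.disjoint_left.1 h h1 h2

theorem exists_bound {ι : Type*} [Fintype ι] (f : ι → ℚ) : ∃ B, ∀ i, f i ≤ B := by
  classical
  obtain ⟨B, hB⟩ := (Finset.univ.image f).exists_le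
  exact ⟨B, fun i => hB _ (Finset.mem_image_of_mem _ (Finset.mem_univ i))⟩

/-- Sequential composition over a finite set of indices. -/
theorem sequentialize {ι : Type*} [DecidableEq ι] (P : ι → Vec → Prop) (T : ι → Vec → Vec)
    (step : ι → List Move)
    (h1 : ∀ i y, P i y → Chain (step i) y (T i y))
    (h2 : ∀ i j y, j ≠ i → P j y → Chain (step i) y y)
    (h3 : ∀ i j y, j ≠ i → P j y → Chain (step i) (T j y) (T j y))
    (s : Finset ι) :
    ∃ ms, (∀ i ∈ s, ∀ y, P i y → Chain ms y (T i y)) ∧ (∀ i, i ∉ s → ∀ y, P i y → Chain ms y y) := by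
  induction s using Finset.induction_on with
  | empty =>
    refine ⟨[], by simp, ?_⟩
    intro i _ y _
    rfl
  | insert a s ha ih =>
    obtain ⟨ms, h4, h5⟩ := ih
    refine ⟨ms ++ step a, ?_, ?_⟩
    · intro i hi y hy
      rcases Finset.mem_insert.1 hi with rfl | hi'
      · exact Chain.append (h5 i ha y hy) (h1 i y hy)
      · have hne : i ≠ a := fun h => ha (h ▸ hi')
        exact Chain.append (h4 i hi' y hy) (h3 a i y hne hy)
    · intro i hi y hy
      have hne : i ≠ a := fun h => hi (h ▸ Finset.mem_insert_self _ _)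
      have hi' : i ∉ s := fun h => hi (Finset.mem_insert_of_mem h)
      exact Chain.append (h5 i hi' y hy) (h2 a i y hne hy)

theorem slot_sep {Xi Xj wi wj G μ t : ℝ} (hXX : G ≤ |Xi - Xj|) (hi : wi + μ < G / 2)
    (hj : wj + μ < G / 2) (hμ : 0 < μ) (ht : |t - Xj| ≤ wj) :
    t < Xi - wi - μ ∨ Xi + wi + μ < t := by
  have h1 := abs_le.1 ht
  rcases le_abs.1 hXX with h | h
  · left; linarith [h1.1, h1.2]
  · right; linarith [h1.1, h1.2]

theorem exists_delta (n : ℕ) (a b h k : Fin n → Fin 3 → ℚ)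
    (ha : ∀ i i', i ≠ i' → Sep (a i) (h i) (a i') (h i'))
    (hb : ∀ i i', i ≠ i' → Sep (b i) (k i) (b i') (k i'))
    (hh : ∀ i j, 0 < h i j) :
    ∃ δ : ℚ, 0 < δ ∧ ∀ i i', i ≠ i' →
      Sep (a i) (fun j => h i j + δ + δ) (a i') (fun j => h i' j + δ + δ) ∧
      Sep (b i) (fun j => k i j / h i j * (h i j + δ) + δ) (b i')
        (fun j => k i' j / h i' j * (h i' j + δ) + δ) := by
  have hev : ∀ᶠ δ in 𝓝[>] (0 : ℚ), ∀ i i', i ≠ i' →
      Sep (a i) (fun j => h i j + δ + δ) (a i') (fun j => h i' j + δ + δ) ∧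
      Sep (b i) (fun j => k i j / h i j * (h i j + δ) + δ) (b i')
        (fun j => k i' j / h i' j * (h i' j + δ) + δ) := by
    rw [Filter.eventually_all]
    intro i
    rw [Filter.eventually_all]
    intro i'
    by_cases hii : i = i'
    · simp [hii]
    simp only [hii, ne_eq, not_false_eq_true, forall_const]
    obtain ⟨j, hj⟩ := ha i i' hii
    obtain ⟨j', hj'⟩ := hb i i' hii
    have t1 : Filter.Tendsto (fun δ : ℚ => (h i j + δ + δ) + (h i' j + δ + δ)) (𝓝[>] 0)
        (𝓝 ((h i j + 0 + 0) + (h i' j + 0 + 0))) :=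
      (Continuous.tendsto (by fun_prop) 0).mono_left nhdsWithin_le_nhds
    have t2 : Filter.Tendsto (fun δ : ℚ => (k i j' / h i j' * (h i j' + δ) + δ) +
        (k i' j' / h i' j' * (h i' j' + δ) + δ)) (𝓝[>] 0)
        (𝓝 ((k i j' / h i j' * (h i j' + 0) + 0) + (k i' j' / h i' j' * (h i' j' + 0) + 0))) :=
      (Continuous.tendsto (by fun_prop) 0).mono_left nhdsWithin_le_nhds
    have e1 := t1.eventually_lt_const (u := |a i j - a i' j|) (by simpa using hj)
    have e2 := t2.eventually_lt_const (u := |b i j' - b i' j'|) (by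
      have h1 := (hh i j').ne'
      have h2 := (hh i' j').ne'
      simp only [add_zero]
      rw [div_mul_cancel₀ _ h1, div_mul_cancel₀ _ h2]
      exact hj')
    filter_upwards [e1, e2] with δ d1 d2
    exact ⟨⟨j, d1⟩, ⟨j', d2⟩⟩
  obtain ⟨δ, hδ, hδ0⟩ := (hev.and self_mem_nhdsWithin).exists
  exact ⟨δ, hδ0, hδ⟩

/-- The plan. -/
theorem exists_plan (n : ℕ) (a b h k : Fin n → Fin 3 → ℚ)
    (hh : ∀ i j, 0 < h i j) (hk : ∀ i j, 0 < k i j)
    (ha : Pairwise fun i i' => Disjoint (box (a i) (h i)) (box (a i') (h i')))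
    (hb : Pairwise fun i i' => Disjoint (box (b i) (k i)) (box (b i') (k i')))
    (hvol : ∀ i, ∏ j : Fin 3, k i j / h i j = 1) :
    ∃ δ : ℚ, 0 < δ ∧ ∃ ms : List Move, ∀ i (y : Vec), InBox (a i) (fun j => h i j + δ) y →
      Chain ms y (fun j => (b i j : ℝ) + ((k i j / h i j : ℚ) : ℝ) * (y j - (a i j : ℝ))) := by
  obtain ⟨δ, hδ, hsep⟩ := exists_delta n a b h k
    (fun i i' hii => sep_of_disjoint (ha hii) (fun j => (hh i j).le) (fun j => (hh i' j).le))
    (fun i i' hii => sep_of_disjoint (hb hii) (fun j => (hk i j).le) (fun j => (hk i' j).le)) hh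
  refine ⟨δ, hδ, ?_⟩
  set lam : Fin n → Fin 3 → ℚ := fun i j => k i j / h i j with hlamdef
  have hlam : ∀ i j, 0 < lam i j := fun i j => div_pos (hk i j) (hh i j)
  set w : Fin n → Fin 3 → ℚ := fun i j => h i j + δ with hwdef
  set w' : Fin n → Fin 3 → ℚ := fun i j => lam i j * w i j with hw'def
  have hw : ∀ i j, 0 < w i j := fun i j => add_pos (hh i j) hδ
  have hw' : ∀ i j, 0 < w' i j := fun i j => mul_pos (hlam i j) (hw i j)
  have hprod : ∀ i, lam i 0 * lam i 1 * lam i 2 = 1 := by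
    intro i
    have := hvol i
    rwa [Fin.prod_univ_three] at this
  -- bounds
  obtain ⟨A₁, hA₁⟩ := exists_bound (fun i => a i 0 + w i 0 + δ)
  obtain ⟨A₂, hA₂⟩ := exists_bound (fun i => b i 0 + w' i 0 + δ)
  obtain ⟨G₁, hG₁⟩ := exists_bound (fun i => w i 0 + δ)
  obtain ⟨G₂, hG₂⟩ := exists_bound (fun i => w' i 0 + δ)
  obtain ⟨L₁, hL₁⟩ := exists_bound (fun i => a i 1 + w i 1)
  obtain ⟨L₂, hL₂⟩ := exists_bound (fun i => b i 1 + w' i 1)
  set A := max A₁ A₂ with hA
  set G := 2 * (|G₁| + |G₂| + 1) with hG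
  set L := max L₁ L₂ with hL
  have hG1 : ∀ i, w i 0 + δ < G / 2 := by
    intro i
    have h1 := hG₁ i
    have h2 := le_abs_self G₁
    have h3 := abs_nonneg G₂
    rw [hG]; linarith
  have hG2 : ∀ i, w' i 0 + δ < G / 2 := by
    intro i
    have h1 := hG₂ i
    have h2 := le_abs_self G₂
    have h3 := abs_nonneg G₁
    rw [hG]; linarith
  have hG0 : 0 ≤ G := by
    have h3 := abs_nonneg G₁
    have h4 := abs_nonneg G₂
    rw [hG]; linarith
  have hnq : (0 : ℚ) ≤ n := by positivity
  have hGn : 0 ≤ G * n := mul_nonneg hG0 hnq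
  set A' := A + G * n with hA'
  -- peeling
  have hcard : (Finset.univ : Finset (Fin n)).card = n := by simp
  obtain ⟨ms₁, X, hX1, hX2, -, hchain₁⟩ := peel a w δ hδ (fun i j => (hw i j).le)
    (fun i i' hii => (hsep i i' hii).1) A G
    (fun i => (hA₁ i).trans (le_max_left _ _)) hG1 Finset.univ
  obtain ⟨ms₃, X', hX'1, hX'2, -, hchain₃⟩ := peel b w' δ hδ (fun i j => (hw' i j).le)
    (fun i i' hii => (hsep i i' hii).2) A' G
    (fun i => by
      have h1 := hA₂ i
      have h2 : A₂ ≤ A := le_max_right _ _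
      rw [hA']
      linarith) hG2 Finset.univ
  rw [hcard] at hX1 hX'1
  have hX1' : ∀ i, A + G / 2 ≤ X i ∧ X i ≤ A + G * n - G / 2 := fun i => hX1 i (Finset.mem_univ i)
  have hX'1' : ∀ i, A' + G / 2 ≤ X' i ∧ X' i ≤ A' + G * n - G / 2 :=
    fun i => hX'1 i (Finset.mem_univ i)
  -- parked positions
  let p : Fin n → Fin 3 → ℚ := fun i => Function.update (a i) 0 (X i)
  let q : Fin n → Fin 3 → ℚ := fun i => Function.update (b i) 0 (X' i)
  have hp0 : ∀ i, p i 0 = X i := fun i => by simp [p]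
  have hq0 : ∀ i, q i 0 = X' i := fun i => by simp [q]
  have hp1 : ∀ i, p i 1 = a i 1 := fun i => by simp [p]
  have hq1 : ∀ i, q i 1 = b i 1 := fun i => by simp [q]
  have hL1' : ∀ i, p i 1 + w i 1 ≤ L := by
    intro i
    rw [hp1]
    exact (hL₁ i).trans (le_max_left _ _)
  have hL2' : ∀ i, q i 1 + lam i 1 * w i 1 ≤ L := by
    intro i
    rw [hq1]
    exact (hL₂ i).trans (le_max_right _ _)
  have htr := fun i => transfer (p i) (q i) (w i) (lam i) (hlam i) (hprod i)
    (fun j => (hw i j).le) δ hδ L (hL1' i) (hL2' i)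
  choose step hstep1 hstep2 using htr
  -- real versions
  have hδ' : (0 : ℝ) < δ := by exact_mod_cast hδ
  have hG1r : ∀ i, (w i 0 : ℝ) + δ < (G : ℝ) / 2 := fun i => by
    have := hG1 i
    exact_mod_cast this
  have hG2r : ∀ i, ((lam i 0 * w i 0 : ℚ) : ℝ) + δ < (G : ℝ) / 2 := fun i => by
    have := hG2 i
    exact_mod_cast this
  have hXX : ∀ i j, j ≠ i → (G : ℝ) ≤ |(X i : ℝ) - X j| := fun i j hji => by
    have := hX2 i (Finset.mem_univ i) j (Finset.mem_univ j) (Ne.symm hji)
    exact_mod_cast this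
  have hXX' : ∀ i j, j ≠ i → (G : ℝ) ≤ |(X' i : ℝ) - X' j| := fun i j hji => by
    have := hX'2 i (Finset.mem_univ i) j (Finset.mem_univ j) (Ne.symm hji)
    exact_mod_cast this
  have hfar : ∀ i j, G ≤ X' i - X j := by
    intro i j
    have h1 := (hX'1' i).1
    have h2 := (hX1' j).2
    rw [hA'] at h1
    linarith
  have hfar1 : ∀ i j, (G : ℝ) ≤ |(X' i : ℝ) - X j| := fun i j => by
    have h1 : G ≤ |X' i - X j| := (hfar i j).trans (le_abs_self _)
    exact_mod_cast h1
  have hfar2 : ∀ i j, (G : ℝ) ≤ |(X i : ℝ) - X' j| := fun i j => by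
    have h1 : G ≤ |X i - X' j| := by
      rw [abs_sub_comm]
      exact (hfar j i).trans (le_abs_self _)
    exact_mod_cast h1
  have hLr1 : ∀ i, (p i 1 : ℝ) + w i 1 ≤ L := fun i => by
    have := hL1' i
    exact_mod_cast this
  have hLr2 : ∀ i, (q i 1 : ℝ) + ((lam i 1 * w i 1 : ℚ) : ℝ) ≤ L := fun i => by
    have := hL2' i
    exact_mod_cast this
  -- the transformation of parked boxes
  let T : Fin n → Vec → Vec := fun i y j => (q i j : ℝ) + lam i j * (y j - p i j)
  have hTbd : ∀ i y, InBox (p i) (w i) y → ∀ j, |T i y j - (q i j : ℝ)| ≤ ((lam i j * w i j : ℚ) : ℝ) := by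
    intro i y hy j
    have hl : (0 : ℝ) < (lam i j : ℝ) := by exact_mod_cast hlam i j
    simp only [T]
    rw [add_sub_cancel_left, abs_mul, abs_of_pos hl]
    push_cast
    exact mul_le_mul_of_nonneg_left (hy j) hl.le
  obtain ⟨ms₂, hms₂, -⟩ := sequentialize (fun i y => InBox (p i) (w i) y) T step hstep1
    (by
      intro i j y hji hy
      refine hstep2 i y ?_ ?_ ?_
      · have := (abs_le.1 (hy 1)).2
        have h2 := hLr1 j
        linarith
      · rw [hp0]
        have hy0 := hy 0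
        rw [hp0] at hy0
        exact slot_sep (hXX i j hji) (hG1r i) (hG1r j) hδ' hy0
      · rw [hq0]
        have hy0 := hy 0
        rw [hp0] at hy0
        exact slot_sep (hfar1 i j) (hG2r i) (hG1r j) hδ' hy0)
    (by
      intro i j y hji hy
      have hbd := hTbd j y hy
      refine hstep2 i (T j y) ?_ ?_ ?_
      · have := (abs_le.1 (hbd 1)).2
        have h2 := hLr2 j
        linarith
      · rw [hp0]
        have hy0 := hbd 0
        rw [hq0] at hy0
        exact slot_sep (hfar2 i j) (hG1r i) (hG2r j) hδ' hy0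
      · rw [hq0]
        have hy0 := hbd 0
        rw [hq0] at hy0
        exact slot_sep (hXX' i j hji) (hG2r i) (hG2r j) hδ' hy0)
    Finset.univ
  refine ⟨ms₁ ++ ms₂ ++ revMoves ms₃, ?_⟩
  intro i y hy
  have hy' : InBox (a i) (w i) y := hy
  -- step one
  have c1 := hchain₁ i (Finset.mem_univ i) y hy'
  set y1 := shift0 y ((X i : ℝ) - a i 0) with hy1
  have hy1P : InBox (p i) (w i) y1 := by
    intro j
    by_cases hj : j = 0
    · subst hj
      rw [hp0, hy1]
      simp only [shift0, Function.update_self]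
      have := hy' 0
      rwa [show y 0 + ((X i : ℝ) - a i 0) - X i = y 0 - a i 0 by ring]
    · have e1 : y1 j = y j := by rw [hy1]; simp [shift0, hj]
      have e2 : p i j = a i j := by simp [p, hj]
      rw [e1, e2]
      exact hy' j
  have c2 := hms₂ i (Finset.mem_univ i) y1 hy1P
  -- final point
  set t : Vec := fun j => (b i j : ℝ) + ((k i j / h i j : ℚ) : ℝ) * (y j - (a i j : ℝ)) with ht
  have htB : InBox (b i) (w' i) t := by
    intro j
    have hl : (0 : ℝ) < (lam i j : ℝ) := by exact_mod_cast hlam i j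
    simp only [ht]
    rw [add_sub_cancel_left, abs_mul]
    have e : ((k i j / h i j : ℚ) : ℝ) = (lam i j : ℝ) := rfl
    rw [e, abs_of_pos hl]
    simp only [hw'def]
    push_cast
    exact mul_le_mul_of_nonneg_left (hy' j) hl.le
  have c3 := hchain₃ i (Finset.mem_univ i) t htB
  have hT : T i y1 = shift0 t ((X' i : ℝ) - b i 0) := by
    funext j
    by_cases hj : j = 0
    · subst hj
      simp only [T, shift0, Function.update_self, hq0, hp0, hy1, ht]
      have e : ((k i 0 / h i 0 : ℚ) : ℝ) = (lam i 0 : ℝ) := rfl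
      rw [e]
      ring
    · have e1 : y1 j = y j := by rw [hy1]; simp [shift0, hj]
      have e2 : p i j = a i j := by simp [p, hj]
      have e3 : q i j = b i j := by simp [q, hj]
      simp only [T, shift0, Function.update_of_ne hj, e1, e2, e3, ht]
      rfl
  rw [hT] at c2
  exact Chain.append (Chain.append c1 c2) c3.rev

end Crest.Agent.Lib.BoxFlow
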