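import Mathlib

/-! Computability of rational arithmetic with respect to Mathlib's `Primcodable ℚ`. -/

set_option autoImplicit false

namespace Crest.Agent.Lib.BoxFlow

open Encodable Denumerable

/-- Unbounded search: a total computable `Nat.find`. -/
theorem computable_find {α : Type*} [Primcodable α] {p : α → ℕ → Bool} (hp : Computable₂ p)
    (h : ∀ a, ∃ N, p a N = true) : Computable (fun a => Nat.find (h a)) := by
  have h1 : Partrec fun a => Nat.rfind (fun n => Part.some (p a n)) :=
    Partrec.rfind (p := fun a n => Part.some (p a n)) hp.partrec₂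
  refine h1.of_eq_tot ?_
  intro a
  refine Nat.mem_rfind.2 ⟨by simpa using Nat.find_spec (h a), ?_⟩
  intro m hm
  have := Nat.find_min (h a) hm
  simpa using this

/-- The raw (non-denumerable) encoding of rationals. -/
def enc0 (q : ℚ) : ℕ := @encode ℚ Rat.instEncodable q

theorem enc0_eq (q : ℚ) : enc0 q = Nat.pair (encode q.num) q.den := rfl

theorem enc0_injective : Function.Injective enc0 := @encode_injective ℚ Rat.instEncodable

/-- The set of codes. -/
def codes : Set ℕ := Set.range enc0

instance instDecCodes : DecidablePred (· ∈ codes) := @decidableRangeEncode ℚ Rat.instEncodable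

theorem codes_infinite : codes.Infinite :=
  Set.infinite_range_of_injective enc0_injective

instance instInfCodes : Infinite codes := codes_infinite.to_subtype

/-- absolute value of the integer with code `z`. -/
def absOfCode (z : ℕ) : ℕ := if z.bodd then z.div2 + 1 else z.div2

theorem encode_int_ofNat (k : ℕ) : encode (Int.ofNat k) = 2 * k := by
  show Equiv.natSumNatEquivNat (Sum.inl k) = _
  simp

theorem encode_int_negSucc (k : ℕ) : encode (Int.negSucc k) = 2 * k + 1 := by
  show Equiv.natSumNatEquivNat (Sum.inr k) = _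
  simp

theorem absOfCode_encode (n : ℤ) : absOfCode (encode n) = n.natAbs := by
  cases n with
  | ofNat k =>
    rw [encode_int_ofNat]
    simp [absOfCode, Nat.div2_val]
  | negSucc k =>
    rw [encode_int_negSucc]
    simp [absOfCode, Nat.div2_val]

theorem natAbs_ofNat (z : ℕ) : (Denumerable.ofNat ℤ z).natAbs = absOfCode z := by
  rw [← absOfCode_encode, Denumerable.encode_ofNat]

theorem mem_codes_iff (m : ℕ) :
    m ∈ codes ↔ 0 < m.unpair.2 ∧ (absOfCode m.unpair.1).Coprime m.unpair.2 := by
  constructor
  · rintro ⟨q, rfl⟩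
    rw [enc0_eq]
    simp only [Nat.unpair_pair]
    refine ⟨q.den_pos, ?_⟩
    rw [absOfCode_encode]
    exact q.reduced
  · rintro ⟨h1, h2⟩
    refine ⟨⟨Denumerable.ofNat ℤ m.unpair.1, m.unpair.2, h1.ne', ?_⟩, ?_⟩
    · rw [natAbs_ofNat]; exact h2
    · rw [enc0_eq]
      show Nat.pair (encode (Denumerable.ofNat ℤ m.unpair.1)) m.unpair.2 = m
      rw [Denumerable.encode_ofNat]
      simp

theorem primrec_absOfCode : Primrec absOfCode := by
  have : Primrec (fun z : ℕ => bif z.bodd then z.div2 + 1 else z.div2) :=
    Primrec.cond Primrec.nat_bodd (Primrec.succ.comp Primrec.nat_div2) Primrec.nat_div2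
  refine this.of_eq ?_
  intro z
  unfold absOfCode
  cases z.bodd <;> simp

theorem coprime_iff_bdd (a d : ℕ) (hd : 0 < d) :
    a.Coprime d ↔ ∀ g < d + 1, ¬ (2 ≤ g ∧ a % g = 0 ∧ d % g = 0) := by
  constructor
  · rintro h g _ ⟨h2, h3, h4⟩
    have := Nat.eq_one_of_dvd_coprimes h (Nat.dvd_of_mod_eq_zero h3) (Nat.dvd_of_mod_eq_zero h4)
    omega
  · intro h
    by_contra hc
    have hgpos : 0 < Nat.gcd a d := Nat.gcd_pos_of_pos_right _ hd
    have hg1 : Nat.gcd a d ≠ 1 := hc
    refine h (Nat.gcd a d) ?_ ⟨by omega, Nat.mod_eq_zero_of_dvd (Nat.gcd_dvd_left _ _),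
      Nat.mod_eq_zero_of_dvd (Nat.gcd_dvd_right _ _)⟩
    have := Nat.le_of_dvd hd (Nat.gcd_dvd_right a d)
    omega

theorem primrecPred_codes : PrimrecPred (· ∈ codes) := by
  have hR : PrimrecRel (fun (g : ℕ) (y : ℕ × ℕ) => ¬ (2 ≤ g ∧ y.1 % g = 0 ∧ y.2 % g = 0)) := by
    refine PrimrecPred.not ?_
    refine PrimrecPred.and ?_ (PrimrecPred.and ?_ ?_)
    · exact Primrec.nat_le.comp (Primrec.const 2) Primrec.fst
    · refine Primrec.eq.comp (Primrec.nat_mod.comp (Primrec.fst.comp Primrec.snd) Primrec.fst)
        (Primrec.const 0)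
    · refine Primrec.eq.comp (Primrec.nat_mod.comp (Primrec.snd.comp Primrec.snd) Primrec.fst)
        (Primrec.const 0)
  have hQ := hR.forall_mem_list
  have hu1 : Primrec (fun m : ℕ => m.unpair.1) := Primrec.fst.comp Primrec.unpair
  have hu2 : Primrec (fun m : ℕ => m.unpair.2) := Primrec.snd.comp Primrec.unpair
  have hP : PrimrecPred (fun m : ℕ => 0 < m.unpair.2 ∧
      ∀ g < m.unpair.2 + 1, ¬ (2 ≤ g ∧ absOfCode m.unpair.1 % g = 0 ∧ m.unpair.2 % g = 0)) := by
    refine PrimrecPred.and (Primrec.nat_lt.comp (Primrec.const 0) hu2) ?_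
    have := hQ.comp (Primrec.list_range.comp (Primrec.succ.comp hu2))
      (Primrec.pair (primrec_absOfCode.comp hu1) hu2)
    refine this.of_eq ?_
    intro m
    simp
  refine hP.of_eq ?_
  intro m
  rw [mem_codes_iff]
  constructor
  · rintro ⟨h1, h2⟩
    exact ⟨h1, (coprime_iff_bdd _ _ h1).2 h2⟩
  · rintro ⟨h1, h2⟩
    exact ⟨h1, (coprime_iff_bdd _ _ h1).1 h2⟩

theorem exists_next (x : ℕ) : ∃ m, decide (x + m + 1 ∈ codes) = true := by
  obtain ⟨b, hb, hxb⟩ := codes_infinite.exists_gt x
  refine ⟨b - x - 1, ?_⟩
  have : x + (b - x - 1) + 1 = b := by omega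
  rw [this]
  simpa using hb

/-- next code after `x` -/
noncomputable def nextCode (x : ℕ) : ℕ := x + Nat.find (exists_next x) + 1

theorem computable_nextCode : Computable nextCode := by
  have hd : Primrec (fun m : ℕ => decide (m ∈ codes)) := primrecPred_codes.decide
  have hp : Computable₂ (fun (x m : ℕ) => decide (x + m + 1 ∈ codes)) := by
    have : Primrec₂ (fun (x m : ℕ) => decide (x + m + 1 ∈ codes)) :=
      hd.comp₂ (Primrec.succ.comp₂ Primrec.nat_add)
    exact this.to_comp
  have hf := computable_find hp exists_next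
  have : Computable (fun x : ℕ => x + Nat.find (exists_next x) + 1) :=
    Computable.succ.comp ((Primrec.nat_add.to_comp).comp Computable.id hf)
  exact this

/-- `r`-th code -/
noncomputable def codeOfRank (r : ℕ) : ℕ := (Nat.Subtype.ofNat codes r : ℕ)

theorem codeOfRank_succ (r : ℕ) : codeOfRank (r + 1) = nextCode (codeOfRank r) := by
  show ((Nat.Subtype.succ (Nat.Subtype.ofNat codes r) : codes) : ℕ) = _
  unfold Nat.Subtype.succ nextCode codeOfRank
  simp only
  congr 2
  apply Nat.find_congr'
  simp

theorem computable_codeOfRank : Computable codeOfRank := by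
  have : Computable (fun r : ℕ => Nat.rec (motive := fun _ => ℕ) (codeOfRank 0)
      (fun _ x => nextCode x) r) := by
    refine Computable.nat_rec (f := fun r : ℕ => r) (g := fun _ => codeOfRank 0)
      (h := fun _ p => nextCode p.2) Computable.id (Computable.const _) ?_
    exact computable_nextCode.comp (Computable.snd.comp Computable.snd)
  refine this.of_eq ?_
  intro r
  induction r with
  | zero => rfl
  | succ r ih => rw [codeOfRank_succ, ← ih]

theorem enc0_ofNat (r : ℕ) : enc0 (Denumerable.ofNat ℚ r) = codeOfRank r := by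
  let _ : Infinite (Set.range (@encode ℚ Rat.instEncodable)) := instInfCodes
  let _ : DecidablePred (· ∈ Set.range (@encode ℚ Rat.instEncodable)) := instDecCodes
  let _ := Nat.Subtype.denumerable (Set.range (@encode ℚ Rat.instEncodable))
  have h1 : Denumerable.ofNat ℚ r = (@equivRangeEncode ℚ Rat.instEncodable).symm
      (Denumerable.ofNat (Set.range (@encode ℚ Rat.instEncodable)) r) :=
    Denumerable.ofEquiv_ofNat _ _ _
  have h2 : Denumerable.ofNat (Set.range (@encode ℚ Rat.instEncodable)) r =
      Nat.Subtype.ofNat codes r := by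
    exact Denumerable.ofEquiv_ofNat ℕ _ r
  rw [h1, h2]
  have h3 : ∀ x : Set.range (@encode ℚ Rat.instEncodable),
      @encode ℚ Rat.instEncodable ((@equivRangeEncode ℚ Rat.instEncodable).symm x) = x.1 := by
    intro x
    have := (@equivRangeEncode ℚ Rat.instEncodable).apply_symm_apply x
    exact congrArg Subtype.val this
  exact h3 _

/-! ### Representations -/

/-- `(p, m, d)` represents `(p - m) / (d + 1)`. -/
abbrev QRep := ℕ × ℕ × ℕ

/-- The value of a representation. -/
def QRep.val (x : QRep) : ℚ := ((x.1 : ℚ) - x.2.1) / (x.2.2 + 1)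

/-- The rank of a rational, i.e. its Primcodable code. -/
def rk (q : ℚ) : ℕ := @encode ℚ (Primcodable.toEncodable) q

theorem computable_rk : Computable rk := Computable.encode

theorem ofNat_rk (q : ℚ) : Denumerable.ofNat ℚ (rk q) = q := Denumerable.ofNat_encode q

theorem enc0_code (q : ℚ) : enc0 q = codeOfRank (rk q) := by
  rw [← enc0_ofNat, ofNat_rk]

/-- canonical representation -/
def toRep (q : ℚ) : QRep :=
  ((bif (enc0 q).unpair.1.bodd then 0 else (enc0 q).unpair.1.div2),
   (bif (enc0 q).unpair.1.bodd then (enc0 q).unpair.1.div2 + 1 else 0),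
   (enc0 q).unpair.2 - 1)

theorem val_toRep (q : ℚ) : (toRep q).val = q := by
  have hd : (q.den : ℚ) = ((q.den - 1 : ℕ) : ℚ) + 1 := by
    have := q.den_pos
    rw [Nat.cast_sub (by omega)]
    simp
  unfold toRep QRep.val
  rw [enc0_eq]
  simp only [Nat.unpair_pair]
  rcases hq : q.num with k | k
  · rw [encode_int_ofNat]
    simp only [Nat.bodd_mul]
    have hk : (2 * k).div2 = k := by simp [Nat.div2_val]
    simp only [hk]
    simp only [Nat.bodd_two, Bool.false_and, cond_false, Nat.cast_zero, sub_zero]
    rw [← hd]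
    conv_rhs => rw [← Rat.num_div_den q, hq]
    simp
  · rw [encode_int_negSucc]
    have hb : (2 * k + 1).bodd = true := by simp
    have hk : (2 * k + 1).div2 = k := by simp [Nat.div2_val]
    simp only [hb, hk, cond_true, Nat.cast_zero, zero_sub]
    rw [← hd]
    conv_rhs => rw [← Rat.num_div_den q, hq]
    simp [Int.negSucc_eq]

theorem computable_enc0 : Computable enc0 := by
  have : Computable (fun q => codeOfRank (rk q)) := computable_codeOfRank.comp computable_rk
  exact this.of_eq (fun q => (enc0_code q).symm)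

theorem computable_toRep : Computable toRep := by
  have h1 : Computable (fun q : ℚ => (enc0 q).unpair.1) :=
    Computable.fst.comp (Computable.unpair.comp computable_enc0)
  have h2 : Computable (fun q : ℚ => (enc0 q).unpair.2) :=
    Computable.snd.comp (Computable.unpair.comp computable_enc0)
  have hb : Computable (fun q : ℚ => (enc0 q).unpair.1.bodd) := Computable.nat_bodd.comp h1
  have hd : Computable (fun q : ℚ => (enc0 q).unpair.1.div2) := Computable.nat_div2.comp h1
  refine Computable.pair ?_ (Computable.pair ?_ ?_)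
  · exact Computable.cond hb (Computable.const 0) hd
  · exact Computable.cond hb (Computable.succ.comp hd) (Computable.const 0)
  · exact Computable.pred.comp h2 |>.of_eq (fun q => by simp)

/-- decidable cross-multiplication equality -/
def QRep.eqv (x y : QRep) : Prop :=
  x.1 * (y.2.2 + 1) + y.2.1 * (x.2.2 + 1) = y.1 * (x.2.2 + 1) + x.2.1 * (y.2.2 + 1)

instance : DecidableRel QRep.eqv := fun x y => by unfold QRep.eqv; infer_instance

theorem QRep.val_eq_iff (x y : QRep) : x.val = y.val ↔ QRep.eqv x y := by
  unfold QRep.val QRep.eqv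
  have h1 : ((x.2.2 : ℚ) + 1) ≠ 0 := by positivity
  have h2 : ((y.2.2 : ℚ) + 1) ≠ 0 := by positivity
  rw [div_eq_div_iff h1 h2]
  constructor
  · intro h
    have : (((x.1 * (y.2.2 + 1) + y.2.1 * (x.2.2 + 1) : ℕ)) : ℚ) =
        ((y.1 * (x.2.2 + 1) + x.2.1 * (y.2.2 + 1) : ℕ) : ℚ) := by
      push_cast
      linarith
    exact_mod_cast this
  · intro h
    have : (((x.1 * (y.2.2 + 1) + y.2.1 * (x.2.2 + 1) : ℕ)) : ℚ) =
        ((y.1 * (x.2.2 + 1) + x.2.1 * (y.2.2 + 1) : ℕ) : ℚ) := by
      rw [h]
    push_cast at this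
    linarith

theorem primrec_add3 {α : Type*} [Primcodable α] {f g : α → ℕ} (hf : Primrec f) (hg : Primrec g) :
    Primrec (fun a => f a + g a) := Primrec.nat_add.comp hf hg

theorem primrec_mul3 {α : Type*} [Primcodable α] {f g : α → ℕ} (hf : Primrec f) (hg : Primrec g) :
    Primrec (fun a => f a * g a) := Primrec.nat_mul.comp hf hg

theorem primrec_eqv : Primrec₂ (fun x y : QRep => decide (QRep.eqv x y)) := by
  have hx1 : Primrec (fun p : QRep × QRep => p.1.1) := Primrec.fst.comp Primrec.fst
  have hx2 : Primrec (fun p : QRep × QRep => p.1.2.1) :=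
    Primrec.fst.comp (Primrec.snd.comp Primrec.fst)
  have hx3 : Primrec (fun p : QRep × QRep => p.1.2.2 + 1) :=
    Primrec.succ.comp (Primrec.snd.comp (Primrec.snd.comp Primrec.fst))
  have hy1 : Primrec (fun p : QRep × QRep => p.2.1) := Primrec.fst.comp Primrec.snd
  have hy2 : Primrec (fun p : QRep × QRep => p.2.2.1) :=
    Primrec.fst.comp (Primrec.snd.comp Primrec.snd)
  have hy3 : Primrec (fun p : QRep × QRep => p.2.2.2 + 1) :=
    Primrec.succ.comp (Primrec.snd.comp (Primrec.snd.comp Primrec.snd))
  have : PrimrecPred (fun p : QRep × QRep => QRep.eqv p.1 p.2) :=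
    Primrec.eq.comp (primrec_add3 (primrec_mul3 hx1 hy3) (primrec_mul3 hy2 hx3))
      (primrec_add3 (primrec_mul3 hy1 hx3) (primrec_mul3 hx2 hy3))
  exact this.decide

theorem exists_rank (x : QRep) :
    ∃ r, decide (QRep.eqv (toRep (Denumerable.ofNat ℚ r)) x) = true := by
  refine ⟨rk x.val, ?_⟩
  rw [ofNat_rk]
  simp only [decide_eq_true_eq]
  rw [← QRep.val_eq_iff, val_toRep]

/-- The value function is computable. -/
theorem computable_val : Computable QRep.val := by
  have hp : Computable₂ (fun (x : QRep) (r : ℕ) =>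
      decide (QRep.eqv (toRep (Denumerable.ofNat ℚ r)) x)) := by
    refine (primrec_eqv.to_comp).comp ?_ Computable.fst
    exact computable_toRep.comp ((Computable.ofNat ℚ).comp Computable.snd)
  have hf := computable_find hp exists_rank
  have : Computable (fun x => Denumerable.ofNat ℚ (Nat.find (exists_rank x))) :=
    (Computable.ofNat ℚ).comp hf
  refine this.of_eq ?_
  intro x
  have h : QRep.eqv (toRep (Denumerable.ofNat ℚ (Nat.find (exists_rank x)))) x :=
    of_decide_eq_true (Nat.find_spec (exists_rank x))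
  rw [← QRep.val_eq_iff, val_toRep] at h
  exact h

/-- helper for computable maps into `ℚ` given by a formula on representations -/
theorem computable_of_rep {α : Type*} [Primcodable α] {f : α → ℚ} {F : α → QRep}
    (hF : Computable F) (h : ∀ a, (F a).val = f a) : Computable f :=
  (computable_val.comp hF).of_eq h

/-! ### Arithmetic -/

section Arith

variable {α : Type*} [Primcodable α]

/-- Nat-arith combinators for `Computable`. -/
theorem comp_nat_add {f g : α → ℕ} (hf : Computable f) (hg : Computable g) :
    Computable (fun a => f a + g a) := Primrec.nat_add.to_comp.comp hf hg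

theorem comp_nat_mul {f g : α → ℕ} (hf : Computable f) (hg : Computable g) :
    Computable (fun a => f a * g a) := Primrec.nat_mul.to_comp.comp hf hg

theorem comp_nat_sub {f g : α → ℕ} (hf : Computable f) (hg : Computable g) :
    Computable (fun a => f a - g a) := Primrec.nat_sub.to_comp.comp hf hg

theorem comp_nat_div {f g : α → ℕ} (hf : Computable f) (hg : Computable g) :
    Computable (fun a => f a / g a) := Primrec.nat_div.to_comp.comp hf hg

theorem comp_rep1 {f : α → ℚ} (hf : Computable f) : Computable (fun a => (toRep (f a)).1) :=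
  Computable.fst.comp (computable_toRep.comp hf)

theorem comp_rep2 {f : α → ℚ} (hf : Computable f) : Computable (fun a => (toRep (f a)).2.1) :=
  Computable.fst.comp (Computable.snd.comp (computable_toRep.comp hf))

theorem comp_rep3 {f : α → ℚ} (hf : Computable f) : Computable (fun a => (toRep (f a)).2.2) :=
  Computable.snd.comp (Computable.snd.comp (computable_toRep.comp hf))

theorem Computable.qadd {f g : α → ℚ} (hf : Computable f) (hg : Computable g) :
    Computable (fun a => f a + g a) := by
  refine computable_of_rep (F := fun a =>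
    ((toRep (f a)).1 * ((toRep (g a)).2.2 + 1) + (toRep (g a)).1 * ((toRep (f a)).2.2 + 1),
     (toRep (f a)).2.1 * ((toRep (g a)).2.2 + 1) + (toRep (g a)).2.1 * ((toRep (f a)).2.2 + 1),
     ((toRep (f a)).2.2 + 1) * ((toRep (g a)).2.2 + 1) - 1)) ?_ ?_
  · have a1 := comp_rep1 hf
    have a2 := comp_rep2 hf
    have a3 := Computable.succ.comp (comp_rep3 hf)
    have b1 := comp_rep1 hg
    have b2 := comp_rep2 hg
    have b3 := Computable.succ.comp (comp_rep3 hg)
    exact Computable.pair (comp_nat_add (comp_nat_mul a1 b3) (comp_nat_mul b1 a3))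
      (Computable.pair (comp_nat_add (comp_nat_mul a2 b3) (comp_nat_mul b2 a3))
        (comp_nat_sub (comp_nat_mul a3 b3) (Computable.const 1)))
  · intro a
    conv_rhs => rw [← val_toRep (f a), ← val_toRep (g a)]
    generalize toRep (f a) = x
    generalize toRep (g a) = y
    unfold QRep.val
    have hx : ((x.2.2 : ℚ) + 1) ≠ 0 := by positivity
    have hy : ((y.2.2 : ℚ) + 1) ≠ 0 := by positivity
    have hxy : 1 ≤ (x.2.2 + 1) * (y.2.2 + 1) := Nat.mul_pos (by omega) (by omega)
    simp only
    rw [Nat.cast_sub hxy]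
    push_cast
    field_simp
    ring

theorem Computable.qmul {f g : α → ℚ} (hf : Computable f) (hg : Computable g) :
    Computable (fun a => f a * g a) := by
  refine computable_of_rep (F := fun a =>
    ((toRep (f a)).1 * (toRep (g a)).1 + (toRep (f a)).2.1 * (toRep (g a)).2.1,
     (toRep (f a)).1 * (toRep (g a)).2.1 + (toRep (f a)).2.1 * (toRep (g a)).1,
     ((toRep (f a)).2.2 + 1) * ((toRep (g a)).2.2 + 1) - 1)) ?_ ?_
  · have a1 := comp_rep1 hf
    have a2 := comp_rep2 hf
    have a3 := Computable.succ.comp (comp_rep3 hf)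
    have b1 := comp_rep1 hg
    have b2 := comp_rep2 hg
    have b3 := Computable.succ.comp (comp_rep3 hg)
    exact Computable.pair (comp_nat_add (comp_nat_mul a1 b1) (comp_nat_mul a2 b2))
      (Computable.pair (comp_nat_add (comp_nat_mul a1 b2) (comp_nat_mul a2 b1))
        (comp_nat_sub (comp_nat_mul a3 b3) (Computable.const 1)))
  · intro a
    conv_rhs => rw [← val_toRep (f a), ← val_toRep (g a)]
    generalize toRep (f a) = x
    generalize toRep (g a) = y
    unfold QRep.val
    have hx : ((x.2.2 : ℚ) + 1) ≠ 0 := by positivity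
    have hy : ((y.2.2 : ℚ) + 1) ≠ 0 := by positivity
    have hxy : 1 ≤ (x.2.2 + 1) * (y.2.2 + 1) := Nat.mul_pos (by omega) (by omega)
    simp only
    rw [Nat.cast_sub hxy]
    push_cast
    field_simp
    ring

theorem Computable.qneg {f : α → ℚ} (hf : Computable f) :
    Computable (fun a => - f a) := by
  refine computable_of_rep (F := fun a =>
    ((toRep (f a)).2.1, (toRep (f a)).1, (toRep (f a)).2.2)) ?_ ?_
  · exact Computable.pair (comp_rep2 hf) (Computable.pair (comp_rep1 hf) (comp_rep3 hf))
  · intro a
    conv_rhs => rw [← val_toRep (f a)]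
    generalize toRep (f a) = x
    unfold QRep.val
    simp only
    ring

theorem Computable.qsub {f g : α → ℚ} (hf : Computable f) (hg : Computable g) :
    Computable (fun a => f a - g a) := by
  have := Computable.qadd hf (Computable.qneg hg)
  exact this.of_eq (fun a => (sub_eq_add_neg _ _).symm)

theorem Computable.qle {f g : α → ℚ} (hf : Computable f) (hg : Computable g) :
    Computable (fun a => decide (f a ≤ g a)) := by
  have key : ∀ a, decide (f a ≤ g a) = decide
      ((toRep (f a)).1 * ((toRep (g a)).2.2 + 1) + (toRep (g a)).2.1 * ((toRep (f a)).2.2 + 1) ≤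
       (toRep (g a)).1 * ((toRep (f a)).2.2 + 1) + (toRep (f a)).2.1 * ((toRep (g a)).2.2 + 1)) := by
    intro a
    apply decide_eq_decide.2
    conv_lhs => rw [← val_toRep (f a), ← val_toRep (g a)]
    generalize toRep (f a) = x
    generalize toRep (g a) = y
    unfold QRep.val
    have hx : (0 : ℚ) < ((x.2.2 : ℚ) + 1) := by positivity
    have hy : (0 : ℚ) < ((y.2.2 : ℚ) + 1) := by positivity
    rw [div_le_div_iff₀ hx hy]
    constructor
    · intro h
      have : (((x.1 * (y.2.2 + 1) + y.2.1 * (x.2.2 + 1) : ℕ)) : ℚ) ≤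
          ((y.1 * (x.2.2 + 1) + x.2.1 * (y.2.2 + 1) : ℕ) : ℚ) := by
        push_cast
        linarith
      exact_mod_cast this
    · intro h
      have : (((x.1 * (y.2.2 + 1) + y.2.1 * (x.2.2 + 1) : ℕ)) : ℚ) ≤
          ((y.1 * (x.2.2 + 1) + x.2.1 * (y.2.2 + 1) : ℕ) : ℚ) := by
        exact_mod_cast h
      push_cast at this
      linarith
  have hle : Computable (fun a => decide
      ((toRep (f a)).1 * ((toRep (g a)).2.2 + 1) + (toRep (g a)).2.1 * ((toRep (f a)).2.2 + 1) ≤
       (toRep (g a)).1 * ((toRep (f a)).2.2 + 1) + (toRep (f a)).2.1 * ((toRep (g a)).2.2 + 1))) := by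
    have a1 := comp_rep1 hf
    have a2 := comp_rep2 hf
    have a3 := Computable.succ.comp (comp_rep3 hf)
    have b1 := comp_rep1 hg
    have b2 := comp_rep2 hg
    have b3 := Computable.succ.comp (comp_rep3 hg)
    have hd : Primrec₂ (fun x y : ℕ => decide (x ≤ y)) := Primrec.nat_le.decide
    exact hd.to_comp.comp (comp_nat_add (comp_nat_mul a1 b3) (comp_nat_mul b2 a3))
      (comp_nat_add (comp_nat_mul b1 a3) (comp_nat_mul a2 b3))
  exact hle.of_eq (fun a => (key a).symm)

theorem Computable.natCast {f : α → ℕ} (hf : Computable f) :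
    Computable (fun a => (f a : ℚ)) := by
  refine computable_of_rep (F := fun a => (f a, 0, 0)) ?_ ?_
  · exact Computable.pair hf (Computable.const _)
  · intro a
    unfold QRep.val
    simp

/-- `ite` for computable data with a computable test -/
theorem Computable.ite' {σ : Type*} [Primcodable σ] {c : α → Prop} [DecidablePred c]
    {f g : α → σ} (hc : Computable (fun a => decide (c a))) (hf : Computable f)
    (hg : Computable g) : Computable (fun a => if c a then f a else g a) := by
  refine (Computable.cond hc hf hg).of_eq ?_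
  intro a
  by_cases h : c a <;> simp [h]

theorem Computable.qinv {f : α → ℚ} (hf : Computable f) :
    Computable (fun a => (f a)⁻¹) := by
  -- positive case formula
  have a1 := comp_rep1 hf
  have a2 := comp_rep2 hf
  have a3 := comp_rep3 hf
  have hpos : Computable (fun a => QRep.val
      ((toRep (f a)).2.2 + 1, 0, ((toRep (f a)).1 - (toRep (f a)).2.1) - 1)) := by
    refine computable_val.comp (Computable.pair (Computable.succ.comp a3)
      (Computable.pair (Computable.const 0) ?_))
    exact comp_nat_sub (comp_nat_sub a1 a2) (Computable.const 1)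
  have hneg : Computable (fun a => QRep.val
      (0, (toRep (f a)).2.2 + 1, ((toRep (f a)).2.1 - (toRep (f a)).1) - 1)) := by
    refine computable_val.comp (Computable.pair (Computable.const 0)
      (Computable.pair (Computable.succ.comp a3) ?_))
    exact comp_nat_sub (comp_nat_sub a2 a1) (Computable.const 1)
  have h0 : Computable (fun a => decide (f a ≤ 0)) := Computable.qle hf (Computable.const 0)
  have h0' : Computable (fun a => decide (0 ≤ f a)) := Computable.qle (Computable.const 0) hf
  have : Computable (fun a => if f a ≤ 0 then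
        (if 0 ≤ f a then (0 : ℚ) else QRep.val
          (0, (toRep (f a)).2.2 + 1, ((toRep (f a)).2.1 - (toRep (f a)).1) - 1))
      else QRep.val
        ((toRep (f a)).2.2 + 1, 0, ((toRep (f a)).1 - (toRep (f a)).2.1) - 1)) :=
    Computable.ite' h0 (Computable.ite' h0' (Computable.const _) hneg) hpos
  refine this.of_eq ?_
  intro a
  have hval := val_toRep (f a)
  generalize hq : f a = q at *
  generalize hx : toRep q = x at *
  have hd : ((x.2.2 : ℚ) + 1) ≠ 0 := by positivity
  have hd' : (0 : ℚ) < ((x.2.2 : ℚ) + 1) := by positivity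
  by_cases h1 : q ≤ 0
  · rw [if_pos h1]
    by_cases h2 : 0 ≤ q
    · rw [if_pos h2]
      have : q = 0 := le_antisymm h1 h2
      simp [this]
    · rw [if_neg h2]
      have hlt : q < 0 := not_le.1 h2
      rw [← hval] at hlt
      unfold QRep.val at hlt
      have h3 : ((x.1 : ℚ) - x.2.1) < 0 := by
        by_contra hc
        exact absurd hlt (not_lt.2 (div_nonneg (not_lt.1 hc) hd'.le))
      have h4 : x.1 < x.2.1 := by
        have : (x.1 : ℚ) < x.2.1 := by linarith
        exact_mod_cast this
      rw [← hval]
      unfold QRep.val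
      simp only
      have h5 : 1 ≤ x.2.1 - x.1 := by omega
      have h6 : ((x.2.1 - x.1 - 1 : ℕ) : ℚ) + 1 = (x.2.1 : ℚ) - x.1 := by
        rw [Nat.cast_sub h5, Nat.cast_sub h4.le]
        simp
      rw [h6, inv_div]
      have h7 : (x.1 : ℚ) - x.2.1 = -((x.2.1 : ℚ) - x.1) := by ring
      rw [h7, div_neg, ← neg_div]
      push_cast
      ring
  · rw [if_neg h1]
    have hlt : 0 < q := not_le.1 h1
    rw [← hval] at hlt
    unfold QRep.val at hlt
    have h3 : 0 < ((x.1 : ℚ) - x.2.1) := by
      by_contra hc
      exact absurd hlt (not_lt.2 (div_nonpos_of_nonpos_of_nonneg (not_lt.1 hc) hd'.le))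
    have h4 : x.2.1 < x.1 := by
      have : (x.2.1 : ℚ) < x.1 := by linarith
      exact_mod_cast this
    rw [← hval]
    unfold QRep.val
    simp only
    have h5 : 1 ≤ x.1 - x.2.1 := by omega
    have h6 : ((x.1 - x.2.1 - 1 : ℕ) : ℚ) + 1 = (x.1 : ℚ) - x.2.1 := by
      rw [Nat.cast_sub h5, Nat.cast_sub h4.le]
      simp
    rw [h6, inv_div]
    push_cast
    ring

theorem Computable.qdiv {f g : α → ℚ} (hf : Computable f) (hg : Computable g) :
    Computable (fun a => f a / g a) := by
  have := Computable.qmul hf (Computable.qinv hg)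
  exact this.of_eq (fun a => (div_eq_mul_inv _ _).symm)

theorem Computable.qabs {f : α → ℚ} (hf : Computable f) :
    Computable (fun a => |f a|) := by
  have h0 : Computable (fun a => decide (0 ≤ f a)) := Computable.qle (Computable.const 0) hf
  have := Computable.ite' h0 hf (Computable.qneg hf)
  refine this.of_eq ?_
  intro a
  by_cases h : 0 ≤ f a
  · simp [h, abs_of_nonneg h]
  · simp [h, abs_of_neg (not_le.1 h)]

/-- A computable natural upper bound of a rational. -/
def qub (q : ℚ) : ℕ := (toRep q).1

theorem le_qub (q : ℚ) : q ≤ (qub q : ℚ) := by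
  conv_lhs => rw [← val_toRep q]
  unfold qub QRep.val
  generalize toRep q = x
  have hd : (1 : ℚ) ≤ (x.2.2 : ℚ) + 1 := by
    have : (0 : ℚ) ≤ x.2.2 := by positivity
    linarith
  have h0 : (0 : ℚ) ≤ x.2.1 := by positivity
  have h1 : (0 : ℚ) ≤ x.1 := by positivity
  rw [div_le_iff₀ (by linarith)]
  nlinarith

theorem Computable.qub' {f : α → ℚ} (hf : Computable f) : Computable (fun a => qub (f a)) :=
  comp_rep1 hf

end Arith

end Crest.Agent.Lib.BoxFlow
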