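import Crest.Agent.Lib.BoxFlow.Eff
import Crest.Prelude.Def_BoxFlow

/-! Tensor-product fields: their mixed derivatives, effectivity and closure under sums. -/

set_option autoImplicit false

namespace Crest.Agent.Lib.BoxFlow

open scoped ContDiff
open Crest.AnalysisR.BoxFlow

/-- A pure tensor on space-time. -/
noncomputable def tens (H : Fin 4 → ℝ → ℝ) (p : ℝ × (Fin 3 → ℝ)) : ℝ :=
  H 0 p.1 * H 1 (p.2 0) * H 2 (p.2 1) * H 3 (p.2 2)

/-- A pure tensor times a basis vector. -/
noncomputable def tensF (H : Fin 4 → ℝ → ℝ) (e : Fin 3) : Field :=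
  fun p => tens H p • (Pi.single e 1 : Fin 3 → ℝ)

theorem contDiff_tens {H : Fin 4 → ℝ → ℝ} (hH : ∀ i, ContDiff ℝ ∞ (H i)) :
    ContDiff ℝ ∞ (tens H) := by
  unfold tens
  have c0 : ContDiff ℝ ∞ (fun p : ℝ × (Fin 3 → ℝ) => p.1) := contDiff_fst
  have c : ∀ j : Fin 3, ContDiff ℝ ∞ (fun p : ℝ × (Fin 3 → ℝ) => p.2 j) := fun j =>
    (contDiff_apply ℝ ℝ j).comp contDiff_snd
  exact (((hH 0).comp c0).mul ((hH 1).comp (c 0))).mul ((hH 2).comp (c 1)) |>.mul
    ((hH 3).comp (c 2))

theorem contDiff_tensF {H : Fin 4 → ℝ → ℝ} (hH : ∀ i, ContDiff ℝ ∞ (H i)) (e : Fin 3) :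
    ContDiff ℝ ∞ (tensF H e) :=
  (contDiff_tens hH).smul contDiff_const

theorem tens_fderiv {H : Fin 4 → ℝ → ℝ} (hH : ∀ i, Differentiable ℝ (H i))
    (p : ℝ × (Fin 3 → ℝ)) (d : Fin 4) :
    fderiv ℝ (tens H) p (direction d) = tens (Function.update H d (deriv (H d))) p := by
  let c0 : (ℝ × (Fin 3 → ℝ)) →L[ℝ] ℝ := ContinuousLinearMap.fst ℝ ℝ (Fin 3 → ℝ)
  let c : Fin 3 → ((ℝ × (Fin 3 → ℝ)) →L[ℝ] ℝ) := fun j =>
    (ContinuousLinearMap.proj j).comp (ContinuousLinearMap.snd ℝ ℝ (Fin 3 → ℝ))
  have h0 : HasFDerivAt (fun p : ℝ × (Fin 3 → ℝ) => H 0 p.1) (deriv (H 0) p.1 • c0) p :=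
    ((hH 0) p.1).hasDerivAt.comp_hasFDerivAt p c0.hasFDerivAt
  have h1 : HasFDerivAt (fun p : ℝ × (Fin 3 → ℝ) => H 1 (p.2 0))
      (deriv (H 1) (p.2 0) • c 0) p :=
    ((hH 1) (p.2 0)).hasDerivAt.comp_hasFDerivAt p (c 0).hasFDerivAt
  have h2 : HasFDerivAt (fun p : ℝ × (Fin 3 → ℝ) => H 2 (p.2 1))
      (deriv (H 2) (p.2 1) • c 1) p :=
    ((hH 2) (p.2 1)).hasDerivAt.comp_hasFDerivAt p (c 1).hasFDerivAt
  have h3 : HasFDerivAt (fun p : ℝ × (Fin 3 → ℝ) => H 3 (p.2 2))
      (deriv (H 3) (p.2 2) • c 2) p :=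
    ((hH 3) (p.2 2)).hasDerivAt.comp_hasFDerivAt p (c 2).hasFDerivAt
  have h := ((h0.mul h1).mul h2).mul h3
  have hf : fderiv ℝ (tens H) p = _ := h.fderiv
  rw [hf]
  fin_cases d
  · simp [direction, tens, c0, c, Function.update]
    ring
  · simp [direction, tens, c0, c, Function.update]
    ring
  · simp [direction, tens, c0, c, Function.update]
    ring
  · simp [direction, tens, c0, c, Function.update]

theorem fderiv_tensF {H : Fin 4 → ℝ → ℝ} (hH : ∀ i, Differentiable ℝ (H i))
    (e : Fin 3) (p : ℝ × (Fin 3 → ℝ)) (d : Fin 4) :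
    fderiv ℝ (tensF H e) p (direction d) = tensF (Function.update H d (deriv (H d))) e p := by
  have hdiff : DifferentiableAt ℝ (tens H) p := by
    unfold tens
    have c0 : Differentiable ℝ (fun p : ℝ × (Fin 3 → ℝ) => p.1) := differentiable_fst
    have c : ∀ j : Fin 3, Differentiable ℝ (fun p : ℝ × (Fin 3 → ℝ) => p.2 j) := fun j => by
      fun_prop
    exact ((((hH 0).comp c0).mul ((hH 1).comp (c 0))).mul ((hH 2).comp (c 1)) |>.mul
      ((hH 3).comp (c 2))) p
  unfold tensF
  rw [fderiv_smul_const hdiff]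
  simp only [ContinuousLinearMap.smulRight_apply]
  rw [tens_fderiv hH]

theorem mixedDeriv_tensF {H : Fin 4 → ℝ → ℝ} (hH : ∀ i, ContDiff ℝ ∞ (H i)) (e : Fin 3)
    (ds : List (Fin 4)) :
    mixedDeriv ds (tensF H e) = tensF (fun i => iteratedDeriv (ds.count i) (H i)) e := by
  induction ds with
  | nil =>
    simp [mixedDeriv]
  | cons d ds ih =>
    funext p
    simp only [mixedDeriv]
    rw [ih]
    rw [fderiv_tensF]
    · congr 1
      funext i
      by_cases hi : i = d
      · subst hi
        simp only [Function.update_self, List.count_cons_self]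
        rw [iteratedDeriv_succ]
      · rw [Function.update_of_ne hi]
        rw [List.count_cons_of_ne (Ne.symm hi)]
    · intro i
      exact (hH i).differentiable_iteratedDeriv _ (by exact_mod_cast WithTop.coe_lt_top _)

theorem contDiff_mixedDeriv {U : Field} (hU : ContDiff ℝ ∞ U) (ds : List (Fin 4)) :
    ContDiff ℝ ∞ (mixedDeriv ds U) := by
  induction ds with
  | nil => exact hU
  | cons d ds ih =>
    simp only [mixedDeriv]
    have : ContDiff ℝ ∞ (fderiv ℝ (mixedDeriv ds U)) := ih.fderiv_right (m := ∞) (by simp)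
    exact this.clm_apply contDiff_const

theorem mixedDeriv_add {U V : Field} (hU : ContDiff ℝ ∞ U) (hV : ContDiff ℝ ∞ V)
    (ds : List (Fin 4)) :
    mixedDeriv ds (fun p => U p + V p) = fun p => mixedDeriv ds U p + mixedDeriv ds V p := by
  induction ds with
  | nil => rfl
  | cons d ds ih =>
    funext p
    simp only [mixedDeriv]
    rw [ih]
    have h1 : DifferentiableAt ℝ (mixedDeriv ds U) p :=
      ((contDiff_mixedDeriv hU ds).differentiable (by simp)) p
    have h2 : DifferentiableAt ℝ (mixedDeriv ds V) p :=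
      ((contDiff_mixedDeriv hV ds).differentiable (by simp)) p
    rw [fderiv_fun_add h1 h2]
    rfl

theorem mixedDeriv_zero (ds : List (Fin 4)) :
    mixedDeriv ds (fun _ => 0 : Field) = fun _ => 0 := by
  induction ds with
  | nil => rfl
  | cons d ds ih =>
    funext p
    simp only [mixedDeriv]
    rw [ih]
    simp

/-! ### Effectivity -/

/-- A smooth effective field. -/
def EffF (U : Field) : Prop := ContDiff ℝ ∞ U ∧ Effective U

theorem effF_zero : EffF (fun _ => 0) := by
  refine ⟨contDiff_const, fun _ _ => 0, fun _ => 0, Computable.const _, Computable.const _, ?_, ?_⟩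
  · intro ds t q n j
    rw [mixedDeriv_zero]
    simp only [Pi.zero_apply, Rat.cast_zero, sub_zero, abs_zero]
    positivity
  · intro ds p j
    rw [mixedDeriv_zero]
    simp

theorem EffF.add {U V : Field} (hU : EffF U) (hV : EffF V) : EffF (fun p => U p + V p) := by
  obtain ⟨h1, E, B, hE, hB, h2, h3⟩ := hU
  obtain ⟨h1', E', B', hE', hB', h2', h3'⟩ := hV
  refine ⟨h1.add h1', fun a j => E (a.1, a.2.1, 2 * a.2.2 + 1) j + E' (a.1, a.2.1, 2 * a.2.2 + 1) j,
    fun ds => B ds + B' ds, ?_, comp_nat_add hB hB', ?_, ?_⟩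
  · refine computable_fin3 (f := fun j (a : List (Fin 4) × (ℚ × (Fin 3 → ℚ)) × ℕ) =>
      E (a.1, a.2.1, 2 * a.2.2 + 1) j + E' (a.1, a.2.1, 2 * a.2.2 + 1) j) ?_
    intro j
    have hm : Computable (fun a : List (Fin 4) × (ℚ × (Fin 3 → ℚ)) × ℕ =>
        (a.1, a.2.1, 2 * a.2.2 + 1)) :=
      Computable.fst.pair ((Computable.fst.comp Computable.snd).pair
        (Computable.succ.comp (comp_nat_mul (Computable.const 2)
          (Computable.snd.comp Computable.snd))))
    exact Computable.qadd (computable_fin3_app (hE.comp hm) j)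
      (computable_fin3_app (hE'.comp hm) j)
  · intro ds t q n j
    rw [mixedDeriv_add h1 h1']
    have e1 := h2 ds t q (2 * n + 1) j
    have e2 := h2' ds t q (2 * n + 1) j
    simp only [Pi.add_apply]
    push_cast at e1 e2 ⊢
    have hn : (0 : ℝ) < (n : ℝ) + 1 := by positivity
    have h3 : 1 / (2 * (n : ℝ) + 1 + 1) + 1 / (2 * (n : ℝ) + 1 + 1) = 1 / ((n : ℝ) + 1) := by
      field_simp
      ring
    rw [← h3]
    refine le_trans ?_ (add_le_add e1 e2)
    refine le_trans (le_of_eq ?_) (abs_add_le _ _)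
    congr 1
    ring
  · intro ds p j
    rw [mixedDeriv_add h1 h1']
    simp only [Pi.add_apply]
    push_cast
    exact (abs_add_le _ _).trans (add_le_add (h3 ds p j) (h3' ds p j))

theorem computable_count (i : Fin 4) : Computable (fun ds : List (Fin 4) => ds.count i) := by
  have h : Primrec (fun ds : List (Fin 4) => ds.count i) := by
    have h1 : PrimrecPred (fun d : Fin 4 => d = i) := Primrec.eq.comp Primrec.id (Primrec.const i)
    have h2 := Primrec.list_length.comp (Primrec.listFilter h1)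
    refine h2.of_eq ?_
    intro ds
    rw [List.count_eq_length_filter]
    congr 1
  exact h.to_comp

/-- Rational coordinates of a space-time point, the first one being the time. -/
def coord (i : Fin 4) (x : ℚ × (Fin 3 → ℚ)) : ℚ :=
  Fin.cases x.1 (fun j => x.2 j) i

theorem computable_coord (i : Fin 4) : Computable (coord i) := by
  refine Fin.cases ?_ ?_ i
  · exact Computable.fst
  · intro j
    exact computable_fin3_app Computable.snd j

theorem effF_tensF {H : Fin 4 → ℝ → ℝ} (hH : ∀ i, EffU (H i)) (e : Fin 3) :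
    EffF (tensF H e) := by
  have hsm : ∀ i, ContDiff ℝ ∞ (H i) := fun i => (hH i).smooth
  refine ⟨contDiff_tensF hsm e, ?_⟩
  let X := List (Fin 4) × (ℚ × (Fin 3 → ℚ))
  have hfac : ∀ i : Fin 4, CR (fun x : X => iteratedDeriv (x.1.count i) (H i) (coord i x.2 : ℝ)) := by
    intro i
    exact (hH i).approx.comp (f := fun x : X => (x.1.count i, coord i x.2))
      (((computable_count i).comp Computable.fst).pair ((computable_coord i).comp Computable.snd))
  obtain ⟨A, -, hA, -, hA1, -⟩ := (((hfac 0).mul (hfac 1)).mul (hfac 2)).mul (hfac 3)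
  choose B hB hB' using fun i => (hH i).bound
  refine ⟨fun a j => if j = e then A ((a.1, a.2.1), a.2.2) else 0,
    fun ds => B 0 (ds.count 0) * B 1 (ds.count 1) * B 2 (ds.count 2) * B 3 (ds.count 3), ?_, ?_, ?_, ?_⟩
  · refine computable_fin3 (f := fun j (a : List (Fin 4) × (ℚ × (Fin 3 → ℚ)) × ℕ) =>
      if j = e then A ((a.1, a.2.1), a.2.2) else 0) ?_
    intro j
    by_cases hj : j = e
    · simp only [hj, if_true]
      refine hA.comp ?_
      exact (Computable.fst.pair (Computable.fst.comp Computable.snd)).pair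
        (Computable.snd.comp Computable.snd)
    · simp only [hj, if_false]
      exact Computable.const _
  · have hb : ∀ i, Computable (fun ds : List (Fin 4) => B i (ds.count i)) := fun i =>
      (hB i).comp (computable_count i)
    exact comp_nat_mul (comp_nat_mul (comp_nat_mul (hb 0) (hb 1)) (hb 2)) (hb 3)
  · intro ds t q n j
    rw [mixedDeriv_tensF hsm]
    unfold tensF
    by_cases hj : j = e
    · subst hj
      simp only [Pi.smul_apply, Pi.single_eq_same, smul_eq_mul, mul_one, if_true]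
      exact hA1 (ds, (t, q)) n
    · simp [hj]
      positivity
  · intro ds p j
    rw [mixedDeriv_tensF hsm]
    unfold tensF tens
    simp only [Pi.smul_apply, smul_eq_mul, abs_mul]
    have h1 : |(Pi.single e 1 : Fin 3 → ℝ) j| ≤ 1 := by
      by_cases hj : j = e
      · subst hj; simp
      · simp [hj]
    have h0 := hB' 0 (ds.count 0) p.1
    have h2 := hB' 1 (ds.count 1) (p.2 0)
    have h3 := hB' 2 (ds.count 2) (p.2 1)
    have h4 := hB' 3 (ds.count 3) (p.2 2)
    push_cast
    calc _ ≤ ((B 0 (ds.count 0) : ℝ) * B 1 (ds.count 1) * B 2 (ds.count 2) * B 3 (ds.count 3)) * 1 := by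
          apply mul_le_mul _ h1 (abs_nonneg _) (by positivity)
          exact mul_le_mul (mul_le_mul (mul_le_mul h0 h2 (abs_nonneg _) (by positivity))
            h3 (abs_nonneg _) (by positivity)) h4 (abs_nonneg _) (by positivity)
      _ = _ := by ring

end Crest.Agent.Lib.BoxFlow
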