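import Crest.Agent.Lib.BoxFlow.Peel

/-! Rational shears, scaling and the transfer of one box from one place to another. -/

set_option autoImplicit false

namespace Crest.Agent.Lib.BoxFlow

theorem abs_cast_q (a : ℚ) : |(a : ℝ)| = ((|a| : ℚ) : ℝ) := by push_cast; rfl

section Shear

variable (z lo hi : Fin 3 → ℚ) (μ : ℚ) (hμ : 0 < μ) (hlh : ∀ j, lo j ≤ hi j)

/-- A shear move about the centre `z`. -/
def shearMove (l p : Fin 3) (hlp : l ≠ p) (γ : ℚ) : Move where
  l := l
  p := p
  hlp := hlp
  d := 0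
  γ := γ
  c := z p
  lo := lo
  hi := hi
  μ := μ
  hμ := hμ
  hlh := hlh

/-- The action of a shear -/
noncomputable def shearMap (z : Fin 3 → ℚ) (l p : Fin 3) (γ : ℚ) (y : Vec) : Vec :=
  Function.update y l (y l + (γ : ℝ) * (y p - (z p : ℝ)))

variable {z}

theorem shear_bound {y : Vec} {r : ℚ} (h : ∀ j, |y j - (z j : ℝ)| ≤ (r : ℝ)) (l p : Fin 3) (γ : ℚ)
    (j : Fin 3) : |shearMap z l p γ y j - (z j : ℝ)| ≤ (((1 + |γ|) * r : ℚ) : ℝ) := by
  have hr : (0 : ℝ) ≤ r := (abs_nonneg _).trans (h 0)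
  push_cast
  have hγ := abs_nonneg (γ : ℝ)
  unfold shearMap
  by_cases hj : j = l
  · subst hj
    rw [Function.update_self]
    have e : y j + (γ : ℝ) * (y p - (z p : ℝ)) - (z j : ℝ) =
        (y j - (z j : ℝ)) + (γ : ℝ) * (y p - (z p : ℝ)) := by ring
    rw [e]
    refine (abs_add_le _ _).trans ?_
    rw [abs_mul]
    have h1 := h j
    have h2 := h p
    nlinarith
  · rw [Function.update_of_ne hj]
    have h1 := h j
    nlinarith

theorem shear_acts {y : Vec} {r : ℚ} (h : ∀ j, |y j - (z j : ℝ)| ≤ (r : ℝ)) (l p : Fin 3)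
    (hlp : l ≠ p) (γ : ℚ)
    (hbig : ∀ j, lo j ≤ z j - (1 + |γ|) * r ∧ z j + (1 + |γ|) * r ≤ hi j) :
    Acts (shearMove z lo hi μ hμ hlh l p hlp γ).field y (shearMap z l p γ y) := by
  have hr : (0 : ℝ) ≤ r := (abs_nonneg _).trans (h 0)
  have hγ := abs_nonneg (γ : ℝ)
  have hbig' : ∀ j, (lo j : ℝ) ≤ z j - (1 + |(γ : ℝ)|) * r ∧ (z j : ℝ) + (1 + |(γ : ℝ)|) * r ≤ hi j := by
    intro j
    obtain ⟨h1, h2⟩ := hbig j
    constructor
    · have : (lo j : ℝ) ≤ ((z j - (1 + |γ|) * r : ℚ) : ℝ) := by exact_mod_cast h1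
      push_cast at this
      exact this
    · have : ((z j + (1 + |γ|) * r : ℚ) : ℝ) ≤ (hi j : ℝ) := by exact_mod_cast h2
      push_cast at this
      exact this
  have hr1 : (r : ℝ) ≤ (1 + |(γ : ℝ)|) * r := by nlinarith
  refine Move.acts_on _ ?_ ?_ ?_
  · intro j
    have h1 := abs_le.1 (h j)
    have h2 := hbig' j
    constructor
    · show (lo j : ℝ) ≤ y j
      linarith [h1.1, h2.1]
    · show y j ≤ (hi j : ℝ)
      linarith [h1.2, h2.2]
  · intro j
    have h1 := abs_le.1 (shear_bound h l p γ j)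
    push_cast at h1
    have h2 := hbig' j
    constructor
    · show (lo j : ℝ) ≤ shearMap z l p γ y j
      linarith [h1.1, h2.1]
    · show shearMap z l p γ y j ≤ (hi j : ℝ)
      linarith [h1.2, h2.2]
  · simp [shearMap, shearMove]

end Shear

/-- The constant controlling the growth during the 2d scaling by `a`. -/
def scaleC (a : ℚ) : ℚ := (1 + |(-1 / a)|) * (1 + |a - 1|) * (1 + |(1 : ℚ)|) * (1 + |(1 - a) / a|)

theorem one_le_one_add_abs (x : ℚ) : 1 ≤ 1 + |x| := by
  have := abs_nonneg x
  linarith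

theorem one_le_scaleC (a : ℚ) : 1 ≤ scaleC a := by
  unfold scaleC
  have h1 := one_le_one_add_abs (-1 / a)
  have h2 := one_le_one_add_abs (a - 1)
  have h3 := one_le_one_add_abs 1
  have h4 := one_le_one_add_abs ((1 - a) / a)
  have h5 : 1 ≤ (1 + |(-1 / a)|) * (1 + |a - 1|) := one_le_mul_of_one_le_of_one_le h1 h2
  have h6 := one_le_mul_of_one_le_of_one_le h5 h3
  exact one_le_mul_of_one_le_of_one_le h6 h4

theorem scale2 (z lo hi : Fin 3 → ℚ) (μ : ℚ) (hμ : 0 < μ) (hlh : ∀ j, lo j ≤ hi j)
    (l p : Fin 3) (hlp : l ≠ p) (a : ℚ) (ha : 0 < a) (ρ : ℚ) (hρ : 0 ≤ ρ)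
    (hbig : ∀ j, lo j ≤ z j - scaleC a * ρ ∧ z j + scaleC a * ρ ≤ hi j) :
    ∃ ms : List Move, (∀ m ∈ ms, m.lo = lo ∧ m.hi = hi ∧ m.μ = μ) ∧
      ∀ y : Vec, (∀ j, |y j - (z j : ℝ)| ≤ (ρ : ℝ)) →
        Chain ms y (fun j => if j = l then (z l : ℝ) + a * (y l - z l)
          else if j = p then (z p : ℝ) + ((a⁻¹ : ℚ) : ℝ) * (y p - z p) else y j) ∧
        ∀ j, |(if j = l then (z l : ℝ) + a * (y l - z l)
          else if j = p then (z p : ℝ) + ((a⁻¹ : ℚ) : ℝ) * (y p - z p) else y j) - (z j : ℝ)| ≤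
            ((scaleC a * ρ : ℚ) : ℝ) := by
  set c1 : ℚ := -1 / a with hc1
  set c2 : ℚ := a - 1 with hc2
  set c4 : ℚ := (1 - a) / a with hc4
  let S := shearMove z lo hi μ hμ hlh
  refine ⟨[S l p hlp c1, S p l hlp.symm c2, S l p hlp (1 : ℚ), S p l hlp.symm c4], ?_, ?_⟩
  · intro m hm
    simp only [List.mem_cons, List.not_mem_nil, or_false] at hm
    rcases hm with rfl | rfl | rfl | rfl <;> exact ⟨rfl, rfl, rfl⟩
  · intro y hy
    have hρ' : (0 : ℝ) ≤ ρ := by exact_mod_cast hρ
    -- radii
    set r1 : ℚ := (1 + |c1|) * ρ with hr1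
    set r2 : ℚ := (1 + |c2|) * r1 with hr2
    set r3 : ℚ := (1 + |(1 : ℚ)|) * r2 with hr3
    set r4 : ℚ := (1 + |c4|) * r3 with hr4
    have e4 : r4 = scaleC a * ρ := by
      rw [hr4, hr3, hr2, hr1]; unfold scaleC; ring
    have g0 : ρ ≤ r1 := le_mul_of_one_le_left hρ (one_le_one_add_abs _)
    have g1 : r1 ≤ r2 := le_mul_of_one_le_left (hρ.trans g0) (one_le_one_add_abs _)
    have g2 : r2 ≤ r3 := le_mul_of_one_le_left (hρ.trans (g0.trans g1)) (one_le_one_add_abs _)
    have g3 : r3 ≤ r4 := le_mul_of_one_le_left (hρ.trans (g0.trans (g1.trans g2)))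
      (one_le_one_add_abs _)
    have hbig4 : ∀ j, lo j ≤ z j - r4 ∧ z j + r4 ≤ hi j := by
      intro j
      rw [e4]
      exact hbig j
    set y1 := shearMap z l p c1 y with hy1
    set y2 := shearMap z p l c2 y1 with hy2
    set y3 := shearMap z l p (1 : ℚ) y2 with hy3
    set y4 := shearMap z p l c4 y3 with hy4
    have b1 : ∀ j, |y1 j - (z j : ℝ)| ≤ (r1 : ℝ) := fun j => shear_bound hy l p c1 j
    have b2 : ∀ j, |y2 j - (z j : ℝ)| ≤ (r2 : ℝ) := fun j => shear_bound b1 p l c2 j
    have b3 : ∀ j, |y3 j - (z j : ℝ)| ≤ (r3 : ℝ) := fun j => shear_bound b2 l p (1 : ℚ) j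
    have b4 : ∀ j, |y4 j - (z j : ℝ)| ≤ (r4 : ℝ) := fun j => shear_bound b3 p l c4 j
    have a1 := shear_acts lo hi μ hμ hlh hy l p hlp c1 (fun j => by
      have := hbig4 j
      constructor <;> linarith [this.1, this.2])
    have a2 := shear_acts lo hi μ hμ hlh b1 p l hlp.symm c2 (fun j => by
      have := hbig4 j
      constructor <;> linarith [this.1, this.2])
    have a3 := shear_acts lo hi μ hμ hlh b2 l p hlp (1 : ℚ) (fun j => by
      have := hbig4 j
      constructor <;> linarith [this.1, this.2])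
    have a4 := shear_acts lo hi μ hμ hlh b3 p l hlp.symm c4 (fun j => by
      have := hbig4 j
      constructor <;> linarith [this.1, this.2])
    have hfinal : y4 = (fun j => if j = l then (z l : ℝ) + a * (y l - z l)
          else if j = p then (z p : ℝ) + ((a⁻¹ : ℚ) : ℝ) * (y p - z p) else y j) := by
      have ha' : (a : ℝ) ≠ 0 := by exact_mod_cast ha.ne'
      have hc1' : (c1 : ℝ) = -1 / a := by rw [hc1]; push_cast; rfl
      have hc2' : (c2 : ℝ) = a - 1 := by rw [hc2]; push_cast; rfl
      have hc4' : (c4 : ℝ) = (1 - a) / a := by rw [hc4]; push_cast; rfl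
      funext j
      by_cases hj : j = l
      · subst hj
        rw [if_pos rfl]
        simp only [hy4, hy3, hy2, hy1, shearMap, Function.update_self, Function.update_of_ne hlp,
          Function.update_of_ne hlp.symm]
        rw [hc1', hc2']
        field_simp
        ring
      · rw [if_neg hj]
        by_cases hjp : j = p
        · subst hjp
          rw [if_pos rfl]
          simp only [hy4, hy3, hy2, hy1, shearMap, Function.update_self, Function.update_of_ne hlp,
            Function.update_of_ne hlp.symm]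
          rw [hc1', hc2', hc4']
          push_cast
          field_simp
          ring
        · rw [if_neg hjp]
          simp only [hy4, hy3, hy2, hy1, shearMap, Function.update_of_ne hj,
            Function.update_of_ne hjp]
    refine ⟨?_, ?_⟩
    · rw [← hfinal]
      exact ⟨y1, a1, y2, a2, y3, a3, y4, a4, rfl⟩
    · intro j
      have h := b4 j
      rw [hfinal] at h
      rw [← e4]
      exact h

/-- Transfer one box from one place to another, scaling it on the way. -/
theorem transfer (p q w lam : Fin 3 → ℚ) (hlam : ∀ j, 0 < lam j)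
    (hprod : lam 0 * lam 1 * lam 2 = 1) (hw : ∀ j, 0 ≤ w j) (μ : ℚ) (hμ : 0 < μ) (L : ℚ)
    (hL1 : p 1 + w 1 ≤ L) (hL2 : q 1 + lam 1 * w 1 ≤ L) :
    ∃ ms : List Move,
      (∀ y, InBox p w y → Chain ms y (fun j => (q j : ℝ) + lam j * (y j - p j))) ∧
      (∀ y : Vec, y 1 ≤ L →
        (y 0 < (p 0 : ℝ) - w 0 - μ ∨ (p 0 : ℝ) + w 0 + μ < y 0) →
        (y 0 < (q 0 : ℝ) - ((lam 0 * w 0 : ℚ) : ℝ) - μ ∨
          (q 0 : ℝ) + ((lam 0 * w 0 : ℚ) : ℝ) + μ < y 0) →
        Chain ms y y) := by
  set ρ : ℚ := w 0 + w 1 + w 2 with hρdef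
  have hρ : 0 ≤ ρ := by
    have := hw 0; have := hw 1; have := hw 2
    rw [hρdef]; linarith
  set ρA : ℚ := scaleC (lam 0) * ρ with hρA
  set R : ℚ := scaleC (lam 2) * ρA with hR
  have hρρA : ρ ≤ ρA := le_mul_of_one_le_left hρ (one_le_scaleC _)
  have hρA0 : 0 ≤ ρA := hρ.trans hρρA
  have hρAR : ρA ≤ R := le_mul_of_one_le_left hρA0 (one_le_scaleC _)
  have hR0 : 0 ≤ R := hρA0.trans hρAR
  have hρR : ρ ≤ R := hρρA.trans hρAR
  have hw0R : w 0 ≤ R := by
    have := hw 1; have := hw 2; rw [hρdef] at hρR; linarith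
  have hw1R : w 1 ≤ R := by
    have := hw 0; have := hw 2; rw [hρdef] at hρR; linarith
  have hw2R : w 2 ≤ R := by
    have := hw 0; have := hw 1; rw [hρdef] at hρR; linarith
  set Z : ℚ := L + μ + R with hZ
  set M : ℚ := |p 0| + |q 0| + |p 2| + |q 2| + |Z| + R with hM
  have hMa := abs_nonneg (p 0)
  have hMb := abs_nonneg (q 0)
  have hMc := abs_nonneg (p 2)
  have hMd := abs_nonneg (q 2)
  have hMe := abs_nonneg Z
  have hMf := le_abs_self Z
  have hM0 : 0 ≤ M := by rw [hM]; linarith
  let z : Fin 3 → ℚ := fun j => if j = 1 then Z else q j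
  let loW : Fin 3 → ℚ := fun j => if j = 1 then L + μ else -M
  let hiW : Fin 3 → ℚ := fun _ => M
  have hlhW : ∀ j, loW j ≤ hiW j := by
    intro j
    by_cases hj : j = 1
    · simp only [loW, hiW, hj, if_true]
      rw [hM]
      have : L + μ ≤ Z := by rw [hZ]; linarith
      linarith
    · simp only [loW, hiW, hj, if_false]
      linarith
  have hbig : ∀ r : ℚ, r ≤ R → ∀ j, loW j ≤ z j - r ∧ z j + r ≤ hiW j := by
    intro r hr j
    have hq0 := le_abs_self (q 0)
    have hq0' := neg_abs_le (q 0)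
    have hq2 := le_abs_self (q 2)
    have hq2' := neg_abs_le (q 2)
    fin_cases j
    · simp only [loW, hiW, z, Fin.zero_eta, Fin.isValue, Fin.reduceEq, if_false]
      constructor <;> rw [hM] <;> linarith
    · simp only [loW, hiW, z, Fin.mk_one, Fin.isValue, if_true]
      constructor
      · rw [hZ]; linarith
      · rw [hM]; linarith
    · simp only [loW, hiW, z, Fin.reduceFinMk, Fin.isValue, Fin.reduceEq, if_false]
      constructor <;> rw [hM] <;> linarith
  obtain ⟨msA, hmsA, hA⟩ := scale2 z loW hiW μ hμ hlhW 0 1 (by decide) (lam 0) (hlam 0) ρ hρ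
    (hbig _ hρAR)
  obtain ⟨msB, hmsB, hB⟩ := scale2 z loW hiW μ hμ hlhW 2 1 (by decide) (lam 2) (hlam 2) ρA hρA0
    (hbig _ le_rfl)
  have hpZ : p 1 ≤ Z := by
    have := hw 1
    rw [hZ]; linarith
  have hw' : ∀ j, 0 ≤ lam j * w j := fun j => mul_nonneg (hlam j).le (hw j)
  have hqZ : q 1 ≤ Z := by
    have := hw' 1
    rw [hZ]; linarith
  let lift : Move :=
    { l := 1, p := 0, hlp := by decide, d := Z - p 1, γ := 0, c := 0
      lo := fun j => p j - w j
      hi := Function.update (fun j => p j + w j) 1 (Z + w 1)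
      μ := μ, hμ := hμ
      hlh := by
        intro j
        by_cases hj : j = 1
        · subst hj
          simp only [Function.update_self]
          have := hw 1
          linarith
        · rw [Function.update_of_ne hj]
          have := hw j
          linarith }
  let t0 : Move :=
    { l := 0, p := 1, hlp := by decide, d := q 0 - p 0, γ := 0, c := 0
      lo := loW, hi := hiW, μ := μ, hμ := hμ, hlh := hlhW }
  let t2 : Move :=
    { l := 2, p := 0, hlp := by decide, d := q 2 - p 2, γ := 0, c := 0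
      lo := loW, hi := hiW, μ := μ, hμ := hμ, hlh := hlhW }
  let desc : Move :=
    { l := 1, p := 0, hlp := by decide, d := q 1 - Z, γ := 0, c := 0
      lo := fun j => q j - lam j * w j
      hi := Function.update (fun j => q j + lam j * w j) 1 (Z + lam 1 * w 1)
      μ := μ, hμ := hμ
      hlh := by
        intro j
        by_cases hj : j = 1
        · subst hj
          simp only [Function.update_self]
          have := hw' 1
          linarith
        · rw [Function.update_of_ne hj]
          have := hw' j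
          linarith }
  have hR0' : (0 : ℝ) ≤ (R : ℝ) := by exact_mod_cast hR0
  have hμ' : (0 : ℝ) < (μ : ℝ) := by exact_mod_cast hμ
  have hZ' : (Z : ℝ) = (L : ℝ) + μ + R := by rw [hZ]; push_cast; ring
  have hwr : ∀ j, (0 : ℝ) ≤ (w j : ℝ) := fun j => by exact_mod_cast hw j
  have hw0R' : (w 0 : ℝ) ≤ R := by exact_mod_cast hw0R
  have hw1R' : (w 1 : ℝ) ≤ R := by exact_mod_cast hw1R
  have hw2R' : (w 2 : ℝ) ≤ R := by exact_mod_cast hw2R
  have hpZ' : (p 1 : ℝ) ≤ Z := by exact_mod_cast hpZ
  have hqZ' : (q 1 : ℝ) ≤ Z := by exact_mod_cast hqZ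
  have hlamr : ∀ j, (0 : ℝ) < (lam j : ℝ) := fun j => by exact_mod_cast hlam j
  -- points on the workshop plateau
  have onW : ∀ (m : Move), m.lo = loW → m.hi = hiW → ∀ (x : Vec) (a0 a2 : ℚ),
      |a0| + R ≤ M → |a2| + R ≤ M → |x 0 - (a0 : ℝ)| ≤ R → |x 1 - (Z : ℝ)| ≤ R →
      |x 2 - (a2 : ℝ)| ≤ R → m.On x := by
    intro m hlo hhi x a0 a2 h0 h2 hx0 hx1 hx2
    have h0' : |(a0 : ℝ)| + R ≤ M := by exact_mod_cast h0
    have h2' : |(a2 : ℝ)| + R ≤ M := by exact_mod_cast h2
    have hZM : (Z : ℝ) + R ≤ M := by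
      have : Z + R ≤ M := by rw [hM]; linarith
      exact_mod_cast this
    have e0 := abs_le.1 hx0
    have e1 := abs_le.1 hx1
    have e2 := abs_le.1 hx2
    have a0le := le_abs_self (a0 : ℝ)
    have a0ge := neg_abs_le (a0 : ℝ)
    have a2le := le_abs_self (a2 : ℝ)
    have a2ge := neg_abs_le (a2 : ℝ)
    intro j
    rw [hlo, hhi]
    fin_cases j
    · simp only [loW, hiW, Fin.zero_eta, Fin.isValue, Fin.reduceEq, if_false]
      push_cast
      constructor <;> linarith [e0.1, e0.2]
    · simp only [loW, hiW, Fin.mk_one, Fin.isValue, if_true]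
      push_cast
      constructor <;> linarith [e1.1, e1.2]
    · simp only [loW, hiW, Fin.reduceFinMk, Fin.isValue, Fin.reduceEq, if_false]
      push_cast
      constructor <;> linarith [e2.1, e2.2]
  have hp0M : |p 0| + R ≤ M := by rw [hM]; linarith
  have hq0M : |q 0| + R ≤ M := by rw [hM]; linarith
  have hp2M : |p 2| + R ≤ M := by rw [hM]; linarith
  have hq2M : |q 2| + R ≤ M := by rw [hM]; linarith
  refine ⟨[lift, t0, t2] ++ msA ++ msB ++ [desc], ?_, ?_⟩
  · intro y hy
    have hy' := fun j => abs_le.1 (hy j)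
    set y1 : Vec := Function.update y 1 (y 1 + ((Z : ℝ) - p 1)) with hy1
    set y2 : Vec := Function.update y1 0 (y1 0 + ((q 0 : ℝ) - p 0)) with hy2
    set y3 : Vec := Function.update y2 2 (y2 2 + ((q 2 : ℝ) - p 2)) with hy3
    have e10 : y1 0 = y 0 := by rw [hy1]; simp
    have e11 : y1 1 = y 1 + ((Z : ℝ) - p 1) := by rw [hy1]; simp
    have e12 : y1 2 = y 2 := by rw [hy1]; simp
    have e20 : y2 0 = y 0 + ((q 0 : ℝ) - p 0) := by rw [hy2]; simp [e10]
    have e21 : y2 1 = y 1 + ((Z : ℝ) - p 1) := by rw [hy2]; simp [e11]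
    have e22 : y2 2 = y 2 := by rw [hy2]; simp [e12]
    have e30 : y3 0 = y 0 + ((q 0 : ℝ) - p 0) := by rw [hy3]; simp [e20]
    have e31 : y3 1 = y 1 + ((Z : ℝ) - p 1) := by rw [hy3]; simp [e21]
    have e32 : y3 2 = y 2 + ((q 2 : ℝ) - p 2) := by rw [hy3]; simp [e22]
    have alift : Acts lift.field y y1 := by
      refine Move.acts_on _ ?_ ?_ ?_
      · intro j
        by_cases hj : j = 1
        · subst hj
          simp only [lift, Function.update_self]
          push_cast
          constructor <;> linarith [(hy' 1).1, (hy' 1).2, hwr 1]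
        · simp only [lift, Function.update_of_ne hj]
          push_cast
          constructor <;> linarith [(hy' j).1, (hy' j).2]
      · intro j
        by_cases hj : j = 1
        · subst hj
          rw [e11]
          simp only [lift, Function.update_self]
          push_cast
          constructor <;> linarith [(hy' 1).1, (hy' 1).2, hwr 1]
        · have : y1 j = y j := by rw [hy1, Function.update_of_ne hj]
          rw [this]
          simp only [lift, Function.update_of_ne hj]
          push_cast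
          constructor <;> linarith [(hy' j).1, (hy' j).2]
      · simp [lift, hy1]
    have at0 : Acts t0.field y1 y2 := by
      refine Move.acts_on _ ?_ ?_ ?_
      · refine onW t0 rfl rfl y1 (p 0) (p 2) hp0M hp2M ?_ ?_ ?_
        · rw [e10, abs_le]
          constructor <;> linarith [(hy' 0).1, (hy' 0).2]
        · rw [e11, abs_le]
          constructor <;> linarith [(hy' 1).1, (hy' 1).2]
        · rw [e12, abs_le]
          constructor <;> linarith [(hy' 2).1, (hy' 2).2]
      · refine onW t0 rfl rfl y2 (q 0) (p 2) hq0M hp2M ?_ ?_ ?_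
        · rw [e20, abs_le]
          constructor <;> linarith [(hy' 0).1, (hy' 0).2]
        · rw [e21, abs_le]
          constructor <;> linarith [(hy' 1).1, (hy' 1).2]
        · rw [e22, abs_le]
          constructor <;> linarith [(hy' 2).1, (hy' 2).2]
      · simp [t0, hy2]
    have at2 : Acts t2.field y2 y3 := by
      refine Move.acts_on _ ?_ ?_ ?_
      · refine onW t2 rfl rfl y2 (q 0) (p 2) hq0M hp2M ?_ ?_ ?_
        · rw [e20, abs_le]
          constructor <;> linarith [(hy' 0).1, (hy' 0).2]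
        · rw [e21, abs_le]
          constructor <;> linarith [(hy' 1).1, (hy' 1).2]
        · rw [e22, abs_le]
          constructor <;> linarith [(hy' 2).1, (hy' 2).2]
      · refine onW t2 rfl rfl y3 (q 0) (q 2) hq0M hq2M ?_ ?_ ?_
        · rw [e30, abs_le]
          constructor <;> linarith [(hy' 0).1, (hy' 0).2]
        · rw [e31, abs_le]
          constructor <;> linarith [(hy' 1).1, (hy' 1).2]
        · rw [e32, abs_le]
          constructor <;> linarith [(hy' 2).1, (hy' 2).2]
      · simp [t2, hy3]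
    have hz0 : (z 0 : ℝ) = q 0 := by simp [z]
    have hz1 : (z 1 : ℝ) = Z := by simp [z]
    have hz2 : (z 2 : ℝ) = q 2 := by simp [z]
    have hρ' : (w 0 : ℝ) + w 1 + w 2 = ρ := by rw [hρdef]; push_cast; ring
    have hz3 : ∀ j, |y3 j - (z j : ℝ)| ≤ (ρ : ℝ) := by
      intro j
      fin_cases j
      · show |y3 0 - (z 0 : ℝ)| ≤ _
        rw [e30, hz0, abs_le]
        constructor <;> linarith [(hy' 0).1, (hy' 0).2, hwr 1, hwr 2]
      · show |y3 1 - (z 1 : ℝ)| ≤ _
        rw [e31, hz1, abs_le]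
        constructor <;> linarith [(hy' 1).1, (hy' 1).2, hwr 0, hwr 2]
      · show |y3 2 - (z 2 : ℝ)| ≤ _
        rw [e32, hz2, abs_le]
        constructor <;> linarith [(hy' 2).1, (hy' 2).2, hwr 0, hwr 1]
    obtain ⟨cA, bA⟩ := hA y3 hz3
    obtain ⟨cB, -⟩ := hB _ bA
    set y4 : Vec := (fun j => if j = 0 then (z 0 : ℝ) + lam 0 * (y3 0 - z 0)
      else if j = 1 then (z 1 : ℝ) + ((lam 0)⁻¹ : ℚ) * (y3 1 - z 1) else y3 j) with hy4
    set y5 : Vec := (fun j => if j = 2 then (z 2 : ℝ) + lam 2 * (y4 2 - z 2)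
      else if j = 1 then (z 1 : ℝ) + ((lam 2)⁻¹ : ℚ) * (y4 1 - z 1) else y4 j) with hy5
    have e40 : y4 0 = (q 0 : ℝ) + lam 0 * (y 0 - p 0) := by
      simp only [hy4, if_true]
      rw [e30, hz0]
      ring
    have e41 : y4 1 = (Z : ℝ) + ((lam 0)⁻¹ : ℚ) * (y 1 - p 1) := by
      simp only [hy4, Fin.isValue, one_ne_zero, if_false, if_true]
      rw [e31, hz1]
      ring
    have e42 : y4 2 = y 2 + ((q 2 : ℝ) - p 2) := by
      simp only [hy4, Fin.isValue, Fin.reduceEq, if_false]
      exact e32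
    have hprod' : (lam 1 : ℝ) = ((lam 2)⁻¹ : ℚ) * ((lam 0)⁻¹ : ℚ) := by
      have h1 : (lam 0 : ℝ) ≠ 0 := (hlamr 0).ne'
      have h2 : (lam 2 : ℝ) ≠ 0 := (hlamr 2).ne'
      have h3 : (lam 0 : ℝ) * lam 1 * lam 2 = 1 := by exact_mod_cast hprod
      push_cast
      field_simp
      linarith
    have e50 : y5 0 = (q 0 : ℝ) + lam 0 * (y 0 - p 0) := by
      simp only [hy5, Fin.isValue, Fin.reduceEq, if_false]
      exact e40
    have e51 : y5 1 = (Z : ℝ) + lam 1 * (y 1 - p 1) := by
      simp only [hy5, Fin.isValue, Fin.reduceEq, if_false, if_true]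
      rw [e41, hz1, hprod']
      ring
    have e52 : y5 2 = (q 2 : ℝ) + lam 2 * (y 2 - p 2) := by
      simp only [hy5, Fin.isValue, if_true]
      rw [e42, hz2]
      ring
    have hlb : ∀ j, |(lam j : ℝ) * (y j - p j)| ≤ (lam j : ℝ) * w j := by
      intro j
      rw [abs_mul, abs_of_pos (hlamr j)]
      exact mul_le_mul_of_nonneg_left (hy j) (hlamr j).le
    have hlb' := fun j => abs_le.1 (hlb j)
    have hw'r : ∀ j, (0 : ℝ) ≤ (lam j : ℝ) * w j := fun j => mul_nonneg (hlamr j).le (hwr j)
    set y6 : Vec := Function.update y5 1 (y5 1 + ((q 1 : ℝ) - Z)) with hy6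
    have e61 : y6 1 = (q 1 : ℝ) + lam 1 * (y 1 - p 1) := by
      rw [hy6, Function.update_self, e51]
      ring
    have adesc : Acts desc.field y5 y6 := by
      refine Move.acts_on _ ?_ ?_ ?_
      · intro j
        fin_cases j
        · show (desc.lo 0 : ℝ) ≤ y5 0 ∧ y5 0 ≤ (desc.hi 0 : ℝ)
          rw [e50]
          simp only [desc, Function.update_of_ne (by decide : (0 : Fin 3) ≠ 1)]
          push_cast
          constructor <;> linarith [(hlb' 0).1, (hlb' 0).2]
        · show (desc.lo 1 : ℝ) ≤ y5 1 ∧ y5 1 ≤ (desc.hi 1 : ℝ)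
          rw [e51]
          simp only [desc, Function.update_self]
          push_cast
          constructor <;> linarith [(hlb' 1).1, (hlb' 1).2]
        · show (desc.lo 2 : ℝ) ≤ y5 2 ∧ y5 2 ≤ (desc.hi 2 : ℝ)
          rw [e52]
          simp only [desc, Function.update_of_ne (by decide : (2 : Fin 3) ≠ 1)]
          push_cast
          constructor <;> linarith [(hlb' 2).1, (hlb' 2).2]
      · intro j
        fin_cases j
        · show (desc.lo 0 : ℝ) ≤ y6 0 ∧ y6 0 ≤ (desc.hi 0 : ℝ)
          have : y6 0 = y5 0 := by rw [hy6, Function.update_of_ne (by decide)]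
          rw [this, e50]
          simp only [desc, Function.update_of_ne (by decide : (0 : Fin 3) ≠ 1)]
          push_cast
          constructor <;> linarith [(hlb' 0).1, (hlb' 0).2]
        · show (desc.lo 1 : ℝ) ≤ y6 1 ∧ y6 1 ≤ (desc.hi 1 : ℝ)
          rw [e61]
          simp only [desc, Function.update_self]
          push_cast
          constructor <;> linarith [(hlb' 1).1, (hlb' 1).2]
        · show (desc.lo 2 : ℝ) ≤ y6 2 ∧ y6 2 ≤ (desc.hi 2 : ℝ)
          have : y6 2 = y5 2 := by rw [hy6, Function.update_of_ne (by decide)]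
          rw [this, e52]
          simp only [desc, Function.update_of_ne (by decide : (2 : Fin 3) ≠ 1)]
          push_cast
          constructor <;> linarith [(hlb' 2).1, (hlb' 2).2]
      · simp [desc, hy6]
    have hfinal : (fun j => (q j : ℝ) + lam j * (y j - p j)) = y6 := by
      funext j
      fin_cases j
      · show (q 0 : ℝ) + lam 0 * (y 0 - p 0) = y6 0
        have : y6 0 = y5 0 := by rw [hy6, Function.update_of_ne (by decide)]
        rw [this, e50]
      · show (q 1 : ℝ) + lam 1 * (y 1 - p 1) = y6 1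
        rw [e61]
      · show (q 2 : ℝ) + lam 2 * (y 2 - p 2) = y6 2
        have : y6 2 = y5 2 := by rw [hy6, Function.update_of_ne (by decide)]
        rw [this, e52]
    rw [hfinal]
    have c3 : Chain [lift, t0, t2] y y3 := ⟨y1, alift, y2, at0, y3, at2, rfl⟩
    have cD : Chain [desc] y5 y6 := Chain.single adesc
    exact Chain.append (Chain.append (Chain.append c3 cA) cB) cD
  · intro y hy1 hy0 hy0'
    apply chain_stationary
    have hoffW : ∀ m : Move, m.lo = loW → m.μ = μ → m.Off y := by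
      intro m h1 h2
      refine ⟨1, Or.inl ?_⟩
      rw [h1, h2]
      simp only [loW, if_true]
      push_cast
      linarith
    intro m hm
    simp only [List.mem_append, List.mem_cons, List.not_mem_nil, or_false] at hm
    rcases hm with ((hm | hm) | hm) | hm
    · rcases hm with rfl | rfl | rfl
      · rcases hy0 with h | h
        · refine ⟨0, Or.inl ?_⟩
          simp only [lift]
          push_cast
          linarith
        · refine ⟨0, Or.inr ?_⟩
          simp only [lift, Function.update_of_ne (by decide : (0 : Fin 3) ≠ 1)]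
          push_cast
          linarith
      · exact hoffW _ rfl rfl
      · exact hoffW _ rfl rfl
    · exact hoffW _ (hmsA m hm).1 (hmsA m hm).2.2
    · exact hoffW _ (hmsB m hm).1 (hmsB m hm).2.2
    · subst hm
      rcases hy0' with h | h
      · refine ⟨0, Or.inl ?_⟩
        simp only [desc]
        push_cast at h ⊢
        linarith
      · refine ⟨0, Or.inr ?_⟩
        simp only [desc, Function.update_of_ne (by decide : (0 : Fin 3) ≠ 1)]
        push_cast at h ⊢
        linarith

end Crest.Agent.Lib.BoxFlow
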